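import Vale.Agent.P088.Calc

/-! Ground state transform and near-parallel frames (P088). -/

open MeasureTheory Set
open scoped ContDiff

namespace Vale.Agent.P088

variable {a b : ℝ} {m : ℕ} {A : Conn m} {sig : Coef}

/-- The coefficient matrix of the Euclidean metric. -/
def euclid : Coef := fun _ i j => if i = j then 1 else 0

/-- A smooth connection with skew-symmetric values. -/
def IsOrthConn (A : Conn m) : Prop :=
  (∀ i p q, ContDiff ℝ ∞ fun x => A x i p q) ∧ ∀ x i p q, A x i p q = -A x i q p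

/-- A continuous symmetric coefficient matrix which dominates the identity. -/
def AboveEuclid (a b : ℝ) (sig : Coef) : Prop :=
  (∀ i j, ContinuousOn (fun x => sig x i j) (closure (shell a b))) ∧
    ∀ x ∈ closure (shell a b), (∀ i j, sig x i j = sig x j i) ∧
      ∀ v : Fin 3 → ℝ, ∑ i, v i ^ 2 ≤ ∑ i, ∑ j, sig x i j * v i * v j

theorem contDiff_covD (hA : IsOrthConn A) {z : Sp → Fin m → ℝ} (hz : ContDiff ℝ ∞ z) (i : Fin 3)
    (p : Fin m) : ContDiff ℝ ∞ fun x => covD A z x i p :=
  (contDiff_dd (contDiff_pi.1 hz p) i).add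
    (ContDiff.sum fun q _ => (hA.1 i p q).mul (contDiff_pi.1 hz q))

/-- The excess of the energy density over the Euclidean one. -/
noncomputable def excess (sig : Coef) (x : Sp) (u : Fin 3 → Fin m → ℝ) : ℝ :=
  ∑ p, ∑ i, ∑ j, (sig x i j - euclid x i j) * u i p * u j p

theorem excess_nonneg (hs : AboveEuclid a b sig) {x : Sp} (hx : x ∈ closure (shell a b))
    (u : Fin 3 → Fin m → ℝ) : 0 ≤ excess sig x u := by
  refine Finset.sum_nonneg fun p _ => ?_
  have := (hs.2 x hx).2 fun i => u i p
  simp only [Fin.sum_univ_three] at this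
  simp [euclid, Fin.sum_univ_three]
  linarith

theorem density_eq (x : Sp) (u : Fin 3 → Fin m → ℝ) :
    ∑ i, ∑ j, sig x i j * ∑ p, u i p * u j p = (∑ i, ∑ p, u i p ^ 2) + excess sig x u := by
  have e : ∑ i, ∑ p, u i p ^ 2 = ∑ p, ∑ i, u i p ^ 2 := Finset.sum_comm
  rw [e, excess, ← Finset.sum_add_distrib]
  simp only [Finset.mul_sum]
  calc ∑ i, ∑ j, ∑ p, sig x i j * (u i p * u j p)
        = ∑ p, ∑ i, ∑ j, sig x i j * (u i p * u j p) := by
        rw [Finset.sum_congr rfl fun i _ => Finset.sum_comm, Finset.sum_comm]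
    _ = _ := Finset.sum_congr rfl fun p _ => by simp [euclid, Fin.sum_univ_three]; ring

theorem density_euclid (x : Sp) (u : Fin 3 → Fin m → ℝ) :
    ∑ i, ∑ j, euclid x i j * ∑ p, u i p * u j p = ∑ i, ∑ p, u i p ^ 2 := by
  simp [euclid, sq]

theorem covD_scalar_mul {h : Sp → ℝ} {z : Sp → Fin m → ℝ} {x : Sp} (hh : DifferentiableAt ℝ h x)
    (hz : ContDiff ℝ ∞ z) (i : Fin 3) (p : Fin m) :
    covD A (fun y q => h y * z y q) x i p = dd i h x * z x p + h x * covD A z x i p := by
  simp only [covD, dd_mul hh ((contDiff_pi.1 hz p).differentiable (by simp) x), mul_add,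
    Finset.mul_sum, mul_left_comm (h x)]
  ring

theorem skew_pair (hA : IsOrthConn A) (x : Sp) (i : Fin 3) (v : Fin m → ℝ) :
    ∑ p, v p * ∑ q, A x i p q * v q = 0 := by
  have e : ∑ p, v p * ∑ q, A x i p q * v q = -∑ p, v p * ∑ q, A x i p q * v q := by
    conv_rhs => simp only [Finset.mul_sum]; rw [Finset.sum_comm]
    simp only [Finset.mul_sum, ← Finset.sum_neg_distrib]
    refine Finset.sum_congr rfl fun p _ => Finset.sum_congr rfl fun q _ => ?_
    rw [hA.2 x i q p]; ring
  linarith

theorem dd_sq_sum (hA : IsOrthConn A) {z : Sp → Fin m → ℝ} (hz : ContDiff ℝ ∞ z) (x : Sp)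
    (i : Fin 3) : dd i (fun y => ∑ p, z y p ^ 2) x = 2 * ∑ p, z x p * covD A z x i p := by
  have d : ∀ p, DifferentiableAt ℝ (fun y => z y p) x := fun p =>
    (contDiff_pi.1 hz p).differentiable (by simp) x
  rw [dd_sum (fun p _ => (d p).fun_pow 2) i]
  have e : ∑ p, z x p * covD A z x i p = ∑ p, z x p * dd i (fun y => z y p) x := by
    simp only [covD, mul_add, Finset.sum_add_distrib, skew_pair hA, add_zero]
  rw [e, Finset.mul_sum]
  refine Finset.sum_congr rfl fun p _ => ?_
  simp only [sq]
  rw [dd_mul (d p) (d p)]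
  ring

/-- A field which is nearly parallel, with boundary value `e`. -/
def Approx (a b : ℝ) (A : Conn m) (e : Fin m → ℝ) (θ : ℝ) (z : Sp → Fin m → ℝ) : Prop :=
  ContDiff ℝ ∞ z ∧ IsTest (shell a b) (fun x p => z x p - e p) ∧
    ∫ x in shell a b, rad a x ^ 2 * ∑ i, ∑ p, covD A z x i p ^ 2 ≤ θ ^ 2

/-- The derivative of the product of a comparison function with a field. -/
noncomputable def prodD (A : Conn m) (h : Sp → ℝ) (z : Sp → Fin m → ℝ) (x : Sp) (i : Fin 3)
    (p : Fin m) : ℝ := dd i h x * z x p + h x * covD A z x i p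

theorem continuousOn_excess (hs : AboveEuclid a b sig) {u : Sp → Fin 3 → Fin m → ℝ}
    (hu : ∀ i p, ContinuousOn (fun x => u x i p) (closure (shell a b))) :
    ContinuousOn (fun x => excess sig x (u x)) (closure (shell a b)) :=
  continuousOn_finsetSum _ fun p _ => continuousOn_finsetSum _ fun i _ =>
    continuousOn_finsetSum _ fun j _ =>
      ((((hs.1 i j).sub continuousOn_const).mul (hu i p)).mul (hu j p))

theorem continuousOn_prodD (ha : 0 < a) (hA : IsOrthConn A) {h : Sp → ℝ}
    (hh : ContDiffOn ℝ ∞ h ({0}ᶜ : Set Sp)) {z : Sp → Fin m → ℝ} (hz : ContDiff ℝ ∞ z) (i : Fin 3)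
    (p : Fin m) : ContinuousOn (fun x => prodD A h z x i p) (closure (shell a b)) :=
  ((contOn ha (contDiffOn_dd isOpen_punctured hh i)).mul
    (contDiff_pi.1 hz p).continuous.continuousOn).add
    ((contOn ha hh).mul (contDiff_covD hA hz i p).continuous.continuousOn)

/-- The ground state transform: equal data give nearly parallel fields with small excess. -/
theorem exists_min_seq (ha : 0 < a) (hA : IsOrthConn A) (hs : AboveEuclid a b sig)
    (hS : SameOuterData a b euclid (0 : Conn m) sig A) {h : Sp → ℝ}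
    (hh : ContDiffOn ℝ ∞ h ({0}ᶜ : Set Sp))
    (hharm : ∀ x ∈ shell a b, ∑ i, dd i (dd i h) x = 0)
    (hin : ∀ x, sqLen x = a ^ 2 → h x = 0) (hle : ∀ x ∈ shell a b, rad a x ≤ h x)
    (e : Fin m → ℝ) {θ : ℝ} (hθ : 0 < θ) :
    ∃ z, Approx a b A e θ z ∧ ∫ x in shell a b, excess sig x (prodD A h z x) ≤ θ ^ 2 := by
  set Ω := shell a b with hΩ
  have ho : IsOpen Ω := isOpen_shell
  have hb : Bornology.IsBounded Ω := isBounded_shell
  have hpos : ∀ x ∈ Ω, 0 < h x := fun x hx => (rad_pos ha hx.1).trans_le (hle x hx)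
  set F : Sp → Fin m → ℝ := fun y p => h y * e p with hF
  have hdat : dataForm Ω sig A F = dataForm Ω euclid 0 F :=
    (hS F (contDiffOn_pi.2 fun p => hh.mul contDiffOn_const)
      fun x hx => by funext p; simp [hF, hin x hx]).symm
  have zeroT : IsTest Ω (0 : Sp → Fin m → ℝ) :=
    ⟨contDiff_const, HasCompactSupport.zero, by simp⟩
  have up : dataForm Ω euclid 0 F ≤ energy Ω euclid 0 F := by
    have hbd : BddBelow ((fun w => energy Ω euclid 0 (F + w)) '' {w | IsTest Ω w}) := by
      refine ⟨0, ?_⟩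
      rintro _ ⟨v, -, rfl⟩
      exact setIntegral_nonneg ho.measurableSet fun x _ => by
        rw [density_euclid]; positivity
    simpa [dataForm] using csInf_le hbd
      (mem_image_of_mem (fun w => energy Ω euclid 0 (F + w)) zeroT)
  have hlt : sInf ((fun w => energy Ω sig A (F + w)) '' {w | IsTest Ω w})
      < energy Ω euclid 0 F + θ ^ 2 := by
    rw [← dataForm, hdat]; linarith [pow_pos hθ 2]
  obtain ⟨_, ⟨w, hw, rfl⟩, hlt⟩ := exists_lt_of_csInf_lt (Set.Nonempty.image _ ⟨0, zeroT⟩) hlt
  obtain ⟨hw1, hw2, hw3⟩ := hw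
  -- the quotient is smooth since it vanishes near every point outside the shell
  have hw0 : ∀ x ∉ tsupport w, w =ᶠ[nhds x] 0 := fun x hx =>
    notMem_tsupport_iff_eventuallyEq.1 hx
  have hq : ∀ p, ContDiff ℝ ∞ fun y => w y p / h y := fun p => by
    rw [contDiff_iff_contDiffAt]
    intro x
    by_cases hx : x ∈ tsupport w
    · exact (contDiff_pi.1 hw1 p).contDiffAt.div
        (hh.contDiffAt (isOpen_punctured.mem_nhds (shell_ne_zero ha (hw3 hx))))
        (hpos x (hw3 hx)).ne'
    · refine (contDiffAt_const (c := (0 : ℝ))).congr_of_eventuallyEq ?_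
      filter_upwards [hw0 x hx] with y hy
      simp [hy]
  set z : Sp → Fin m → ℝ := fun y p => e p + w y p / h y with hz
  have hzc : ContDiff ℝ ∞ z := contDiff_pi.2 fun p => contDiff_const.add (hq p)
  have hsupp : tsupport (fun y p => z y p - e p) ⊆ tsupport w := by
    refine closure_mono fun y hy hy0 => hy ?_
    funext p; simp [hz, hy0]
  have htest : IsTest Ω (fun y p => z y p - e p) :=
    ⟨contDiff_pi.2 fun p => (contDiff_pi.1 hzc p).sub contDiff_const,
      hw2.of_isClosed_subset (isClosed_tsupport _) hsupp, hsupp.trans hw3⟩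
  have heq : EqOn (F + w) (fun y q => h y * z y q) Ω := fun y hy => by
    funext q
    simp only [hF, hz, Pi.add_apply]
    field_simp [(hpos y hy).ne']
  -- the exact identity
  set s : Sp → ℝ := fun y => (∑ p, z y p ^ 2) - ∑ p, e p ^ 2 with hsdef
  have hs_supp : tsupport s ⊆ tsupport w := by
    refine closure_mono fun y hy hy0 => hy ?_
    simp [hsdef, hz, hy0]
  have hst : IsTestFun Ω s :=
    ⟨(ContDiff.sum fun p _ => (contDiff_pi.1 hzc p).pow 2).sub contDiff_const,
      hw2.of_isClosed_subset (isClosed_tsupport _) hs_supp, hs_supp.trans hw3⟩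
  set u := prodD A h z with hu
  set M : Sp → ℝ := fun x => h x ^ 2 * ∑ i, ∑ p, covD A z x i p ^ 2 with hM
  set X : Sp → ℝ := fun x => (∑ i, dd i h x ^ 2) * ∑ p, e p ^ 2 with hX
  set Y : Sp → ℝ := fun x => ∑ i, dd i s x * (h x * dd i h x) with hY
  set Y' : Sp → ℝ := fun x => s x * ∑ i, dd i h x ^ 2 with hY'
  have cdh : ∀ i, ContinuousOn (dd i h) (closure Ω) := fun i =>
    contOn ha (contDiffOn_dd isOpen_punctured hh i)
  have iM : IntegrableOn M Ω := intOn hb (((contOn ha hh).pow 2).mul
    (continuousOn_finsetSum _ fun i _ => continuousOn_finsetSum _ fun p _ =>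
      (contDiff_covD hA hzc i p).continuous.continuousOn.pow 2))
  have iX : IntegrableOn X Ω :=
    intOn hb ((continuousOn_finsetSum _ fun i _ => (cdh i).pow 2).mul continuousOn_const)
  have iY : IntegrableOn Y Ω := intOn hb (continuousOn_finsetSum _ fun i _ =>
    (contDiff_dd hst.1 i).continuous.continuousOn.mul ((contOn ha hh).mul (cdh i)))
  have iY' : IntegrableOn Y' Ω :=
    intOn hb (hst.1.continuous.continuousOn.mul (continuousOn_finsetSum _ fun i _ => (cdh i).pow 2))
  have iE : IntegrableOn (fun x => excess sig x (u x)) Ω :=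
    intOn hb (continuousOn_excess hs fun i p => continuousOn_prodD ha hA hh hzc i p)
  have hYY : ∫ x in Ω, Y x = -∫ x in Ω, Y' x := by
    rw [hY, div_ibp ha hst fun i => hh.mul (contDiffOn_dd isOpen_punctured hh i)]
    congr 1
    refine setIntegral_congr_fun ho.measurableSet fun x hx => ?_
    have h0 := shell_ne_zero ha hx
    simp only [dd_mul (diffAt_of_on h0 hh) (diffAt_of_on h0 (contDiffOn_dd isOpen_punctured hh _)),
      Finset.sum_add_distrib, ← Finset.mul_sum, hharm x hx, hY', sq, mul_zero, add_zero]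
  have e2 : energy Ω sig A (F + w)
      = ∫ x in Ω, (X x + Y x + Y' x + M x + excess sig x (u x)) := by
    refine setIntegral_congr_fun ho.measurableSet fun x hx => ?_
    have hev : ∀ p, (fun y => (F + w) y p) =ᶠ[nhds x] fun y => h y * z y p := fun p =>
      Filter.eventually_of_mem (ho.mem_nhds hx) fun y hy => congrFun (heq hy) p
    have hc : ∀ i p, covD A (F + w) x i p = u x i p := by
      intro i p
      rw [hu, prodD, ← covD_scalar_mul (diffAt_of_on (shell_ne_zero ha hx) hh) hzc i p]
      simp only [covD, dd_congr (hev p) i, heq hx]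
    simp only [hc]
    rw [density_eq]
    congr 1
    have hds : ∀ i, dd i s x = 2 * ∑ p, z x p * covD A z x i p := by
      intro i
      rw [hsdef]
      unfold dd
      rw [fderiv_sub_const]
      exact dd_sq_sum hA hzc x i
    have hi : ∀ i, ∑ p, u x i p ^ 2 = dd i h x ^ 2 * (∑ p, z x p ^ 2)
        + 2 * (∑ p, z x p * covD A z x i p) * (h x * dd i h x)
        + h x ^ 2 * ∑ p, covD A z x i p ^ 2 := by
      intro i
      simp only [hu, prodD, Finset.mul_sum, Finset.sum_mul, ← Finset.sum_add_distrib]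
      exact Finset.sum_congr rfl fun p _ => by ring
    simp only [hi, hX, hY, hY', hM, hds, Fin.sum_univ_three]
    simp only [hsdef]
    ring
  have e3 : energy Ω euclid 0 F = ∫ x in Ω, X x := by
    refine setIntegral_congr_fun ho.measurableSet fun x hx => ?_
    rw [density_euclid]
    simp only [covD, Pi.zero_apply, zero_mul, Finset.sum_const_zero, add_zero, hF, hX]
    have d : ∀ i p, dd i (fun y => h y * e p) x = dd i h x * e p := fun i p => by
      rw [dd_mul (diffAt_of_on (shell_ne_zero ha hx) hh) (differentiableAt_const _)]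
      simp [dd]
    simp only [d, mul_pow, Finset.sum_mul, Finset.mul_sum]
    exact Finset.sum_comm
  have i1 : IntegrableOn (fun x => X x + Y x) Ω := iX.add iY
  have i2 : IntegrableOn (fun x => X x + Y x + Y' x) Ω := i1.add iY'
  have i3 : IntegrableOn (fun x => X x + Y x + Y' x + M x) Ω := i2.add iM
  simp only at hlt
  rw [e2, e3, integral_add i3 iE, integral_add i2 iM, integral_add i1 iY', integral_add iX iY,
    hYY] at hlt
  have n1 : 0 ≤ ∫ x in Ω, excess sig x (u x) :=
    setIntegral_nonneg ho.measurableSet fun x hx => excess_nonneg hs (subset_closure hx) _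
  have n2 : 0 ≤ ∫ x in Ω, M x :=
    setIntegral_nonneg ho.measurableSet fun x _ => by positivity
  refine ⟨z, ⟨hzc, htest, ?_⟩, by linarith⟩
  have cr : ContinuousOn (fun x => rad a x ^ 2 * ∑ i, ∑ p, covD A z x i p ^ 2) (closure Ω) :=
    ((contOn ha contDiffOn_rad).pow 2).mul
      (continuousOn_finsetSum _ fun i _ => continuousOn_finsetSum _ fun p _ =>
        (contDiff_covD hA hzc i p).continuous.continuousOn.pow 2)
  have := setIntegral_mono_on (intOn hb cr) iM ho.measurableSet fun x hx =>
    mul_le_mul_of_nonneg_right (pow_le_pow_left₀ (rad_pos ha hx.1).le (hle x hx) 2) (by positivity)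
  linarith

end Vale.Agent.P088
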