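import Vale.Agent.P088.Radial

/-! Integration by parts and weighted estimates on the shell (P088). -/

open MeasureTheory Set
open scoped ContDiff

namespace Vale.Agent.P088

variable {a b : ℝ} {Ω : Set Sp}

/-- Scalar test functions. -/
def IsTestFun (Ω : Set Sp) (f : Sp → ℝ) : Prop :=
  ContDiff ℝ ∞ f ∧ HasCompactSupport f ∧ tsupport f ⊆ Ω

theorem intOn (hb : Bornology.IsBounded Ω) {f : Sp → ℝ} (hf : ContinuousOn f (closure Ω)) :
    IntegrableOn f Ω :=
  (hf.integrableOn_compact hb.isCompact_closure).mono_set subset_closure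

theorem contDiff_dd {f : Sp → ℝ} (hf : ContDiff ℝ ∞ f) (i : Fin 3) : ContDiff ℝ ∞ (dd i f) :=
  (hf.fderiv_right (m := ∞) (by simp)).clm_apply contDiff_const

theorem contDiffOn_dd {f : Sp → ℝ} {U : Set Sp} (hU : IsOpen U) (hf : ContDiffOn ℝ ∞ f U)
    (i : Fin 3) : ContDiffOn ℝ ∞ (dd i f) U :=
  (hf.fderiv_of_isOpen hU (m := ∞) (by simp)).clm_apply contDiffOn_const

theorem contOn (ha : 0 < a) {f : Sp → ℝ} (hf : ContDiffOn ℝ ∞ f ({0}ᶜ : Set Sp)) :
    ContinuousOn f (closure (shell a b)) :=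
  hf.continuousOn.mono (closure_shell_punctured ha)

theorem diffAt_of_on {f : Sp → ℝ} {x : Sp} (hx : x ≠ 0) (hf : ContDiffOn ℝ ∞ f ({0}ᶜ : Set Sp)) :
    DifferentiableAt ℝ f x :=
  (hf.differentiableOn (by simp)).differentiableAt (isOpen_punctured.mem_nhds hx)

theorem dd_mul {f g : Sp → ℝ} {x : Sp} (hf : DifferentiableAt ℝ f x) (hg : DifferentiableAt ℝ g x)
    (i : Fin 3) : dd i (fun y => f y * g y) x = dd i f x * g x + f x * dd i g x := by
  unfold dd
  rw [fderiv_fun_mul hf hg]
  simp
  ring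

theorem dd_sum {ι : Type*} {s : Finset ι} {f : ι → Sp → ℝ} {x : Sp}
    (hf : ∀ p ∈ s, DifferentiableAt ℝ (f p) x) (i : Fin 3) :
    dd i (fun y => ∑ p ∈ s, f p y) x = ∑ p ∈ s, dd i (f p) x := by
  unfold dd
  rw [fderiv_fun_sum hf]
  simp

theorem dd_comm {f : Sp → ℝ} (hf : ContDiff ℝ ∞ f) (i j : Fin 3) (x : Sp) :
    dd i (dd j f) x = dd j (dd i f) x := by
  have hd : DifferentiableAt ℝ (fderiv ℝ f) x :=
    (hf.fderiv_right (m := ∞) (by simp)).differentiable (by simp) x
  have key : ∀ p q : Fin 3, dd p (dd q f) x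
      = fderiv ℝ (fderiv ℝ f) x (Pi.single p 1) (Pi.single q 1) := by
    intro p q
    unfold dd
    rw [fderiv_clm_apply hd (differentiableAt_const _)]
    simp
  rw [key, key]
  exact (hf.contDiffAt.isSymmSndFDerivAt (by simp; exact WithTop.coe_le_coe.2 le_top)).eq _ _

/-- Integration by parts against a scalar test function. -/
theorem ibp (ho : IsOpen Ω) {φ g : Sp → ℝ} (hφ : IsTestFun Ω φ) (hg : ContDiffOn ℝ 1 g Ω)
    (i : Fin 3) : ∫ x in Ω, dd i φ x * g x = -∫ x in Ω, φ x * dd i g x := by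
  obtain ⟨hφ, hc, hs⟩ := hφ
  have hpd : tsupport (dd i φ) ⊆ tsupport φ := tsupport_fderiv_apply_subset ℝ _
  have hcg : ContinuousOn (dd i g) Ω :=
    (hg.continuousOn_fderiv_of_isOpen ho (by simp)).clm_apply continuousOn_const
  have mk : ∀ {p q : Sp → ℝ}, Continuous p → HasCompactSupport p → tsupport p ⊆ Ω →
      ContinuousOn q Ω → Integrable (fun x => p x * q x) := by
    intro p q hp hcp hsp hq
    refine Continuous.integrable_of_hasCompactSupport ?_ hcp.mul_right
    refine continuous_of_tsupport fun x hx => ?_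
    exact hp.continuousAt.mul (hq.continuousAt (ho.mem_nhds
      (hsp (tsupport_mul_subset_left (f := p) (g := q) hx))))
  have A := integral_mul_fderiv_eq_neg_fderiv_mul_of_integrable (μ := volume) (f := φ) (g := g)
    (v := Pi.single i 1)
    (mk (contDiff_dd hφ i).continuous (hc.fderiv_apply ℝ _) (hpd.trans hs) hg.continuousOn)
    (mk hφ.continuous hc hs hcg) (mk hφ.continuous hc hs hg.continuousOn)
    (fun x _ => hφ.differentiable (by simp) x)
    (fun x hx => (hg.differentiableOn (by simp) x (hs hx)).differentiableAt (ho.mem_nhds (hs hx)))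
  have e1 : ∫ x in Ω, dd i φ x * g x = ∫ x, dd i φ x * g x :=
    setIntegral_eq_integral_of_forall_compl_eq_zero fun x hx => by
      rw [image_eq_zero_of_notMem_tsupport (fun h => hx (hs (hpd h))), zero_mul]
  have e2 : ∫ x in Ω, φ x * dd i g x = ∫ x, φ x * dd i g x :=
    setIntegral_eq_integral_of_forall_compl_eq_zero fun x hx => by
      rw [image_eq_zero_of_notMem_tsupport (fun h => hx (hs h)), zero_mul]
  rw [e1, e2]
  simp only [dd] at A ⊢
  linarith

/-- The divergence form of integration by parts on the shell. -/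
theorem div_ibp (ha : 0 < a) {f : Sp → ℝ} (hf : IsTestFun (shell a b) f) {g : Fin 3 → Sp → ℝ}
    (hg : ∀ i, ContDiffOn ℝ ∞ (g i) ({0}ᶜ : Set Sp)) :
    ∫ x in shell a b, ∑ i, dd i f x * g i x
      = -∫ x in shell a b, f x * ∑ i, dd i (g i) x := by
  have hb := isBounded_shell (a := a) (b := b)
  have i1 : ∀ i, IntegrableOn (fun x => dd i f x * g i x) (shell a b) := fun i =>
    intOn hb ((contDiff_dd hf.1 i).continuous.continuousOn.mul (contOn ha (hg i)))
  have i2 : ∀ i, IntegrableOn (fun x => f x * dd i (g i) x) (shell a b) := fun i =>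
    intOn hb (hf.1.continuous.continuousOn.mul (contOn ha (contDiffOn_dd isOpen_punctured (hg i) i)))
  simp only [Finset.mul_sum]
  rw [integral_finsetSum _ fun i _ => i1 i, integral_finsetSum _ fun i _ => i2 i,
    ← Finset.sum_neg_distrib]
  exact Finset.sum_congr rfl fun i _ => ibp isOpen_shell hf
    (((hg i).mono (subset_closure.trans (closure_shell_punctured ha))).of_le (by simp)) i

/-- The weight in the Poincaré inequality. -/
noncomputable def wt (a : ℝ) (x : Sp) : ℝ := rad a x * ∑ i, dd i (rad a) x ^ 2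

theorem contDiffOn_wt : ContDiffOn ℝ ∞ (wt a) ({0}ᶜ : Set Sp) :=
  contDiffOn_rad.mul (ContDiffOn.sum fun i _ =>
    (contDiffOn_dd isOpen_punctured contDiffOn_rad i).pow 2)

theorem shell_ne_zero (ha : 0 < a) {x : Sp} (hx : x ∈ shell a b) : x ≠ 0 :=
  closure_shell_punctured ha (subset_closure hx)

theorem wt_pos (ha : 0 < a) {x : Sp} (hx : x ∈ shell a b) : 0 < wt a x :=
  mul_pos (rad_pos ha hx.1) (rad_grad_pos (shell_ne_zero ha hx))

/-- The weighted identity behind the Poincaré inequalities. -/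
theorem weighted_ibp (ha : 0 < a) {f : Sp → ℝ} (hf : IsTestFun (shell a b) f) :
    2 * ∫ x in shell a b, wt a x * f x
      = -∫ x in shell a b, ∑ i, dd i f x * (rad a x ^ 2 * dd i (rad a) x) := by
  rw [div_ibp ha hf (g := fun i x => rad a x ^ 2 * dd i (rad a) x) fun i =>
    (contDiffOn_rad.pow 2).mul (contDiffOn_dd isOpen_punctured contDiffOn_rad i), neg_neg,
    ← integral_const_mul]
  refine setIntegral_congr_fun isOpen_shell.measurableSet fun x hx => ?_
  have h0 := shell_ne_zero ha hx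
  have d0 := diffAt_of_on h0 (contDiffOn_rad (a := a))
  have e : ∀ i, dd i (fun y => rad a y ^ 2 * dd i (rad a) y) x
      = 2 * rad a x * dd i (rad a) x ^ 2 + rad a x ^ 2 * dd i (dd i (rad a)) x := by
    intro i
    simp only [pow_two (rad a _)]
    rw [dd_mul (d0.fun_mul d0)
      (diffAt_of_on h0 (contDiffOn_dd isOpen_punctured contDiffOn_rad i)), dd_mul d0 d0]
    ring
  simp only [e, Finset.sum_add_distrib, ← Finset.mul_sum, harmonic_rad h0, wt]
  ring

theorem weight_lower (ha : 0 < a) {K : Set Sp} (hK : IsCompact K) (hKs : K ⊆ shell a b) :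
    ∃ c, 0 < c ∧ ∀ x ∈ K, c ≤ wt a x ∧ c ≤ rad a x ^ 2 := by
  have hsub : K ⊆ ({0}ᶜ : Set Sp) := hKs.trans (subset_closure.trans (closure_shell_punctured ha))
  obtain ⟨c, hc, h⟩ := hK.exists_forall_le' (a := 0)
    ((contDiffOn_wt.continuousOn.mono hsub).inf ((contDiffOn_rad.continuousOn.mono hsub).pow 2))
    fun x hx => lt_min (wt_pos ha (hKs hx)) (pow_pos (rad_pos ha (hKs hx).1) 2)
  exact ⟨c, hc, fun x hx => le_min_iff.1 (h x hx)⟩

/-- A continuous function orthogonal to all test functions vanishes on the shell. -/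
theorem eq_zero_of_tests {P : Sp → ℝ} (hP : ContinuousOn P (closure (shell a b)))
    (h : ∀ ψ, IsTestFun (shell a b) ψ → ∫ x in shell a b, ψ x * P x = 0) :
    ∀ x ∈ shell a b, P x = 0 := by
  have hc := hP.mono subset_closure
  have key := isOpen_shell.ae_eq_zero_of_integral_contDiff_smul_eq_zero (μ := volume)
    (hc.locallyIntegrableOn (isOpen_shell (a := a) (b := b)).measurableSet) fun ψ h1 h2 h3 => by
      have := h ψ ⟨h1, h2, h3⟩
      have e : ∫ x in shell a b, ψ x * P x = ∫ x, ψ x • P x :=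
        setIntegral_eq_integral_of_forall_compl_eq_zero fun x hx => by
          rw [image_eq_zero_of_notMem_tsupport (fun hh => hx (h3 hh)), zero_mul]
      rw [← e]; exact this
  exact Measure.eqOn_open_of_ae_eq ((ae_restrict_iff' isOpen_shell.measurableSet).2 key)
    isOpen_shell hc continuousOn_const

end Vale.Agent.P088
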