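import Mathlib

/-! Dirichlet energies of a metric and a connection on a spherical shell (P088). -/

open MeasureTheory Set
open scoped ContDiff

namespace Vale.Agent.P088

/-- Coordinate space. -/
abbrev Sp := Fin 3 → ℝ

/-- The `i`th partial derivative. -/
noncomputable def dd (i : Fin 3) (f : Sp → ℝ) (x : Sp) : ℝ := fderiv ℝ f x (Pi.single i 1)

/-- The squared Euclidean length. -/
def sqLen (x : Sp) : ℝ := ∑ k, x k ^ 2

/-- The open spherical shell with radii `a` and `b`. -/
def shell (a b : ℝ) : Set Sp := {x | a ^ 2 < sqLen x ∧ sqLen x < b ^ 2}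

/-- A coefficient matrix at each point. -/
abbrev Coef := Sp → Fin 3 → Fin 3 → ℝ

/-- A connection one-form with values in real `m × m` matrices. -/
abbrev Conn (m : ℕ) := Sp → Fin 3 → Fin m → Fin m → ℝ

/-- The covariant derivative in direction `i`, component `p`. -/
noncomputable def covD {m : ℕ} (A : Conn m) (v : Sp → Fin m → ℝ) (x : Sp) (i : Fin 3)
    (p : Fin m) : ℝ :=
  dd i (fun y => v y p) x + ∑ q, A x i p q * v x q

/-- The curvature of a connection. -/
noncomputable def curv {m : ℕ} (A : Conn m) (x : Sp) (i j : Fin 3) (p q : Fin m) : ℝ :=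
  dd i (fun y => A y j p q) x - dd j (fun y => A y i p q) x
    + ∑ r, (A x i p r * A x j r q - A x j p r * A x i r q)

/-- The Dirichlet energy with coefficient matrix `sig`, that is `sqrt(det g) g⁻¹`. -/
noncomputable def energy {m : ℕ} (Ω : Set Sp) (sig : Coef) (A : Conn m)
    (v : Sp → Fin m → ℝ) : ℝ :=
  ∫ x in Ω, ∑ i, ∑ j, sig x i j * ∑ p, covD A v x i p * covD A v x j p

/-- Smooth fields with compact support in `Ω`. -/
def IsTest {m : ℕ} (Ω : Set Sp) (w : Sp → Fin m → ℝ) : Prop :=
  ContDiff ℝ ∞ w ∧ HasCompactSupport w ∧ tsupport w ⊆ Ω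

/-- Least energy among fields which differ from `F` by a test field. -/
noncomputable def dataForm {m : ℕ} (Ω : Set Sp) (sig : Coef) (A : Conn m)
    (F : Sp → Fin m → ℝ) : ℝ :=
  sInf ((fun w => energy Ω sig A (F + w)) '' {w | IsTest Ω w})

/-- Equal data on the outer sphere: equal least energies for boundary values supported on it. -/
def SameOuterData {m : ℕ} (a b : ℝ) (sig₁ : Coef) (A₁ : Conn m) (sig₂ : Coef) (A₂ : Conn m) :
    Prop :=
  ∀ F : Sp → Fin m → ℝ, ContDiffOn ℝ ∞ F {0}ᶜ → (∀ x, sqLen x = a ^ 2 → F x = 0) →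
    dataForm (shell a b) sig₁ A₁ F = dataForm (shell a b) sig₂ A₂ F

end Vale.Agent.P088
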