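import Vale.Agent.P088.Frame

/-! Vanishing curvature and vanishing excess (P088). -/

open MeasureTheory Set
open scoped ContDiff

namespace Vale.Agent.P088

variable {a b : ℝ} {m : ℕ} {A : Conn m} {sig : Coef}

theorem contDiff_curv (hA : IsOrthConn A) (i j : Fin 3) (p q : Fin m) :
    ContDiff ℝ ∞ fun x => curv A x i j p q :=
  ((contDiff_dd (hA.1 j p q) i).sub (contDiff_dd (hA.1 i p q) j)).add
    (ContDiff.sum fun r _ =>
      ((hA.1 i p r).mul (hA.1 j r q)).sub ((hA.1 j p r).mul (hA.1 i r q)))

theorem dd_add {f g : Sp → ℝ} {x : Sp} (hf : DifferentiableAt ℝ f x) (hg : DifferentiableAt ℝ g x)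
    (i : Fin 3) : dd i (fun y => f y + g y) x = dd i f x + dd i g x := by
  unfold dd
  rw [fderiv_fun_add hf hg]
  rfl

theorem dd_covD (hA : IsOrthConn A) {z : Sp → Fin m → ℝ} (hz : ContDiff ℝ ∞ z) (x : Sp)
    (i j : Fin 3) (p : Fin m) :
    dd i (fun y => covD A z y j p) x = dd i (dd j fun y => z y p) x
      + ∑ q, (dd i (fun y => A y j p q) x * z x q + A x j p q * dd i (fun y => z y q) x) := by
  have d : ∀ q, DifferentiableAt ℝ (fun y => A y j p q) x := fun q =>
    (hA.1 j p q).differentiable (by simp) x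
  have dz : ∀ q, DifferentiableAt ℝ (fun y => z y q) x := fun q =>
    (contDiff_pi.1 hz q).differentiable (by simp) x
  have e1 : dd i (fun y => covD A z y j p) x = dd i (dd j fun y => z y p) x
      + dd i (fun y => ∑ q, A y j p q * z y q) x :=
    dd_add ((contDiff_dd (contDiff_pi.1 hz p) j).differentiable (by simp) x)
      ((ContDiff.sum fun q _ => (hA.1 j p q).mul (contDiff_pi.1 hz q)).differentiable (by simp) x) i
  rw [e1, dd_sum (fun q _ => (d q).fun_mul (dz q)) i]
  simp only [dd_mul (d _) (dz _)]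

theorem curv_apply (hA : IsOrthConn A) {z : Sp → Fin m → ℝ} (hz : ContDiff ℝ ∞ z) (x : Sp)
    (i j : Fin 3) (p : Fin m) :
    ∑ q, curv A x i j p q * z x q
      = dd i (fun y => covD A z y j p) x - dd j (fun y => covD A z y i p) x
        + ((∑ q, A x i p q * covD A z x j q) - ∑ q, A x j p q * covD A z x i q) := by
  rw [dd_covD hA hz, dd_covD hA hz, dd_comm (contDiff_pi.1 hz p) i j]
  simp only [curv, covD, mul_add, add_mul, sub_mul, Finset.sum_mul, Finset.mul_sum,
    Finset.sum_add_distrib, Finset.sum_sub_distrib]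
  rw [Finset.sum_comm (f := fun q r => A x i p r * A x j r q * z x q),
    Finset.sum_comm (f := fun q r => A x j p r * A x i r q * z x q)]
  simp only [mul_assoc]
  ring

theorem exists_max {f : Sp → ℝ} (hf : ContinuousOn f (closure (shell a b))) :
    ∃ M, 0 ≤ M ∧ ∀ x ∈ shell a b, |f x| ≤ M := by
  obtain ⟨M, hM⟩ := (isBounded_shell (a := a) (b := b)).isCompact_closure.exists_bound_of_continuousOn hf
  exact ⟨max M 0, le_max_right _ _, fun x hx => (hM x (subset_closure hx)).trans (le_max_left _ _)⟩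

theorem abs_le_sum_abs {ι : Type*} {s : Finset ι} (f : ι → ℝ) {k : ι} (hk : k ∈ s) :
    |f k| ≤ ∑ t ∈ s, |f t| :=
  Finset.single_le_sum (f := fun t => |f t|) (fun _ _ => abs_nonneg _) hk

theorem eq_zero_of_le_mul {I C : ℝ} (hC : 0 ≤ C) (h : ∀ θ, 0 < θ → θ ≤ 1 → |I| ≤ C * θ) : I = 0 := by
  refine abs_nonpos_iff.1 (le_of_forall_pos_le_add fun η hη => ?_)
  refine (h (min 1 (η / (C + 1))) (lt_min one_pos (by positivity)) (min_le_left _ _)).trans ?_
  rw [zero_add]
  refine (mul_le_mul_of_nonneg_left (min_le_right _ _) hC).trans ?_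
  rw [← mul_div_assoc, div_le_iff₀ (by positivity)]
  nlinarith

set_option maxHeartbeats 2000000 in
/-- Nearly parallel fields are nearly annihilated by the curvature. -/
theorem exists_curv_bound (ha : 0 < a) (hA : IsOrthConn A) (e : Fin m → ℝ) (i j : Fin 3)
    {ψ : Sp → ℝ} (hψ : IsTestFun (shell a b) ψ) :
    ∃ C, 0 ≤ C ∧ ∀ θ, 0 < θ → θ ≤ 1 → ∀ z, Approx a b A e θ z →
      |∫ x in shell a b, ψ x * ∑ p, (∑ q, curv A x i j p q * z x q) ^ 2| ≤ C * θ := by
  set Ω := shell a b with hΩ
  have ho : IsOpen Ω := isOpen_shell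
  have hb : Bornology.IsBounded Ω := isBounded_shell
  obtain ⟨L, hL, hbound⟩ := exists_len_bound (b := b) ha hA e
  obtain ⟨c, hc, hcK⟩ := weight_lower ha hψ.2.1.isCompact hψ.2.2
  obtain ⟨M1, hM10, hM1⟩ := exists_max (a := a) (b := b)
    (f := fun x => |ψ x| + ∑ k, |dd k ψ x|)
    (hψ.1.continuous.abs.add
      (continuous_finsetSum _ fun k _ => (contDiff_dd hψ.1 k).continuous.abs)).continuousOn
  obtain ⟨M2, hM20, hM2⟩ := exists_max (a := a) (b := b)
    (f := fun x => 1 + ∑ p, ∑ q, (|curv A x i j p q| + ∑ k, |dd k (fun y => curv A y i j p q) x|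
      + ∑ k, |A x k p q|))
    (continuous_const.add (continuous_finsetSum _ fun p _ => continuous_finsetSum _ fun q _ =>
      ((contDiff_curv hA i j p q).continuous.abs.add
        (continuous_finsetSum _ fun k _ =>
          (contDiff_dd (contDiff_curv hA i j p q) k).continuous.abs)).add
        (continuous_finsetSum _ fun k _ => (hA.1 k p q).continuous.abs))).continuousOn
  -- constants
  set K := 5 * M1 * (1 + M2) ^ 2 * ((m : ℝ) + 1) ^ 2 * (3 * m + 1) with hK
  refine ⟨K / c * (L + 2), by positivity, fun θ hθ hθ1 z hz => ?_⟩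
  have hl := hbound θ hθ hθ1 z hz
  obtain ⟨hzc, -, hE⟩ := hz
  set T : Sp → Fin m → ℝ := fun x p => ∑ q, curv A x i j p q * z x q with hT
  have hTc : ∀ p, ContDiff ℝ ∞ fun x => T x p := fun p =>
    ContDiff.sum fun q _ => (contDiff_curv hA i j p q).mul (contDiff_pi.1 hzc q)
  set φ : Fin m → Sp → ℝ := fun p x => ψ x * T x p with hφ
  have hφt : ∀ p, IsTestFun Ω (φ p) := fun p =>
    ⟨hψ.1.mul (hTc p), hψ.2.1.mul_right, (tsupport_mul_subset_left).trans hψ.2.2⟩
  have cξ : ∀ k p, ContDiff ℝ ∞ fun x => covD A z x k p := contDiff_covD hA hzc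
  set R : Sp → Fin m → ℝ := fun x p =>
    (∑ q, A x i p q * covD A z x j q) - ∑ q, A x j p q * covD A z x i q with hR
  have hRc : ∀ p, Continuous fun x => R x p := fun p =>
    (continuous_finsetSum _ fun q _ => (hA.1 i p q).continuous.mul (cξ j q).continuous).sub
      (continuous_finsetSum _ fun q _ => (hA.1 j p q).continuous.mul (cξ i q).continuous)
  set W : Sp → ℝ := fun x =>
    ∑ p, (-(dd i (φ p) x * covD A z x j p) + dd j (φ p) x * covD A z x i p + φ p x * R x p) with hW
  have hIW : ∫ x in Ω, ψ x * ∑ p, T x p ^ 2 = ∫ x in Ω, W x := by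
    have e : ∀ x, ψ x * ∑ p, T x p ^ 2 = ∑ p, (φ p x * dd i (fun y => covD A z y j p) x
        - φ p x * dd j (fun y => covD A z y i p) x + φ p x * R x p) := by
      intro x
      rw [Finset.mul_sum]
      refine Finset.sum_congr rfl fun p _ => ?_
      have := curv_apply hA hzc x i j p
      simp only [hφ, hT, hR] at this ⊢
      rw [sq]
      nth_rewrite 2 [this]
      ring
    have a1 : ∀ p (k l : Fin 3), IntegrableOn
        (fun x => φ p x * dd k (fun y => covD A z y l p) x) Ω := fun p k l =>
      intOn hb ((hφt p).1.continuous.mul (contDiff_dd (cξ l p) k).continuous).continuousOn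
    have a2 : ∀ p (k l : Fin 3), IntegrableOn
        (fun x => dd k (φ p) x * covD A z x l p) Ω := fun p k l =>
      intOn hb ((contDiff_dd (hφt p).1 k).continuous.mul (cξ l p).continuous).continuousOn
    have a3 : ∀ p, IntegrableOn (fun x => φ p x * R x p) Ω := fun p =>
      intOn hb ((hφt p).1.continuous.mul (hRc p)).continuousOn
    have b1 : ∀ p, IntegrableOn (fun x => φ p x * dd i (fun y => covD A z y j p) x
        - φ p x * dd j (fun y => covD A z y i p) x) Ω := fun p => (a1 p i j).sub (a1 p j i)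
    have b2 : ∀ p, IntegrableOn
        (fun x => -(dd i (φ p) x * covD A z x j p) + dd j (φ p) x * covD A z x i p) Ω :=
      fun p => (a2 p i j).neg.add (a2 p j i)
    have b3 : ∀ p, IntegrableOn (fun x => -(dd i (φ p) x * covD A z x j p)) Ω :=
      fun p => (a2 p i j).neg
    have c1 : ∀ p, IntegrableOn (fun x => φ p x * dd i (fun y => covD A z y j p) x
        - φ p x * dd j (fun y => covD A z y i p) x + φ p x * R x p) Ω :=
      fun p => (b1 p).add (a3 p)
    have c2 : ∀ p, IntegrableOn (fun x => -(dd i (φ p) x * covD A z x j p)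
        + dd j (φ p) x * covD A z x i p + φ p x * R x p) Ω := fun p => (b2 p).add (a3 p)
    simp only [e, hW]
    rw [integral_finsetSum _ fun p _ => c1 p, integral_finsetSum _ fun p _ => c2 p]
    refine Finset.sum_congr rfl fun p _ => ?_
    rw [integral_add (b1 p) (a3 p), integral_add (b2 p) (a3 p), integral_sub (a1 p i j) (a1 p j i),
      integral_add (b3 p) (a2 p j i), integral_neg,
      ibp ho (hφt p) ((cξ j p).contDiffOn.of_le (by simp)) i,
      ibp ho (hφt p) ((cξ i p).contDiffOn.of_le (by simp)) j]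
    ring
  rw [hIW]
  -- the pointwise bound
  set B1 : Sp → ℝ := fun x => θ * (K / c) * (wt a x * ∑ p, z x p ^ 2) with hB1
  set B2 : Sp → ℝ :=
    fun x => 2 / θ * (K / c) * (rad a x ^ 2 * ∑ k, ∑ p, covD A z x k p ^ 2) with hB2
  have iB1 : IntegrableOn B1 Ω := (intOn hb (continuousOn_len (b := b) ha hzc)).const_mul _
  have iB2 : IntegrableOn B2 Ω := (intOn hb (continuousOn_grad_sq (b := b) ha hA hzc)).const_mul _
  have cW : Continuous W := continuous_finsetSum _ fun p _ =>
    (((contDiff_dd (hφt p).1 i).continuous.mul (cξ j p).continuous).neg.add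
      ((contDiff_dd (hφt p).1 j).continuous.mul (cξ i p).continuous)).add
      ((hφt p).1.continuous.mul (hRc p))
  have iB : IntegrableOn (fun x => B1 x + B2 x) Ω := iB1.add iB2
  refine abs_integral_le_integral_abs.trans ((setIntegral_mono_on
    (intOn hb cW.continuousOn).abs iB ho.measurableSet fun x hx => ?_).trans ?_)
  · have hK0 : 0 ≤ K / c := by positivity
    have hB10 : 0 ≤ B1 x := mul_nonneg (mul_nonneg hθ.le hK0)
      (mul_nonneg (wt_pos ha hx).le (Finset.sum_nonneg fun p _ => sq_nonneg _))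
    have hB20 : 0 ≤ B2 x := by
      simp only [hB2]; positivity
    by_cases hs : x ∈ tsupport ψ
    swap
    · have h0 : ∀ p, ∀ y, y ∉ tsupport ψ → φ p y = 0 := fun p y hy => by
        simp [hφ, image_eq_zero_of_notMem_tsupport hy]
      have hd : ∀ p k, dd k (φ p) x = 0 := fun p k => by
        rw [dd_congr (g := fun _ => 0) (Filter.eventually_of_mem
          ((isClosed_tsupport ψ).isOpen_compl.mem_nhds hs) fun y hy => h0 p y hy)]
        simp [dd]
      have hW0 : W x = 0 := by simp [hW, hd, h0 _ x hs]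
      rw [hW0, abs_zero]; linarith
    obtain ⟨hcw, hcr⟩ := hcK x hs
    set Z := ∑ q, |z x q| with hZ
    set X := ∑ k, ∑ q, |covD A z x k q| with hX
    set N := 1 + M2 with hN
    have hN1 : 1 ≤ N := by linarith
    have hM1' := (le_abs_self _).trans (hM1 x hx)
    have hM2' := (le_abs_self _).trans (hM2 x hx)
    have hψ0 : |ψ x| ≤ M1 := by
      linarith [Finset.sum_nonneg fun k (_ : k ∈ (Finset.univ : Finset (Fin 3))) =>
        abs_nonneg (dd k ψ x)]
    have hψ1 : ∀ k, |dd k ψ x| ≤ M1 := fun k => by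
      linarith [abs_le_sum_abs (fun k => dd k ψ x) (Finset.mem_univ k), abs_nonneg (ψ x)]
    have entry : ∀ p q, (|curv A x i j p q| + ∑ k, |dd k (fun y => curv A y i j p q) x|
        + ∑ k, |A x k p q|) ≤ M2 := by
      intro p q
      have h1 := Finset.single_le_sum (f := fun q => |curv A x i j p q|
        + ∑ k, |dd k (fun y => curv A y i j p q) x| + ∑ k, |A x k p q|)
        (fun q _ => by positivity) (Finset.mem_univ q)
      have h2 := Finset.single_le_sum (f := fun p => ∑ q, (|curv A x i j p q|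
        + ∑ k, |dd k (fun y => curv A y i j p q) x| + ∑ k, |A x k p q|))
        (fun p _ => by positivity) (Finset.mem_univ p)
      linarith
    have eF : ∀ p q, |curv A x i j p q| ≤ N := fun p q => by
      have := entry p q
      linarith [Finset.sum_nonneg fun k (_ : k ∈ (Finset.univ : Finset (Fin 3))) =>
        abs_nonneg (dd k (fun y => curv A y i j p q) x), Finset.sum_nonneg
        fun k (_ : k ∈ (Finset.univ : Finset (Fin 3))) => abs_nonneg (A x k p q)]
    have eA : ∀ k p q, |A x k p q| ≤ N := fun k p q => by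
      have := entry p q
      linarith [abs_le_sum_abs (fun k => A x k p q) (Finset.mem_univ k),
        abs_nonneg (curv A x i j p q), Finset.sum_nonneg fun k
          (_ : k ∈ (Finset.univ : Finset (Fin 3))) =>
          abs_nonneg (dd k (fun y => curv A y i j p q) x)]
    have edF : ∀ k p q, |dd k (fun y => curv A y i j p q) x| ≤ N := fun k p q => by
      have := entry p q
      linarith [abs_le_sum_abs (fun k => dd k (fun y => curv A y i j p q) x) (Finset.mem_univ k),
        abs_nonneg (curv A x i j p q), Finset.sum_nonneg fun k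
          (_ : k ∈ (Finset.univ : Finset (Fin 3))) => abs_nonneg (A x k p q)]
    have hZ0 : 0 ≤ Z := Finset.sum_nonneg fun q _ => abs_nonneg _
    have hX0 : 0 ≤ X := Finset.sum_nonneg fun k _ => Finset.sum_nonneg fun q _ => abs_nonneg _
    have hXk : ∀ k, ∑ q, |covD A z x k q| ≤ X := fun k =>
      Finset.single_le_sum (f := fun k => ∑ q, |covD A z x k q|)
        (fun k _ => Finset.sum_nonneg fun q _ => abs_nonneg _) (Finset.mem_univ k)
    have lin : ∀ (c v : Fin m → ℝ) (B : ℝ), (∀ q, |c q| ≤ B) →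
        |∑ q, c q * v q| ≤ B * ∑ q, |v q| := by
      intro c v B h
      rw [Finset.mul_sum]
      refine (Finset.abs_sum_le_sum_abs _ _).trans (Finset.sum_le_sum fun q _ => ?_)
      rw [abs_mul]
      exact mul_le_mul_of_nonneg_right (h q) (abs_nonneg _)
    have bT : ∀ p, |T x p| ≤ N * Z := fun p => lin _ _ N (eF p)
    have bR : ∀ p, |R x p| ≤ 2 * N * X := fun p => by
      have h1 := (lin _ (fun q => covD A z x j q) N (eA i p)).trans
        (mul_le_mul_of_nonneg_left (hXk j) (by linarith))
      have h2 := (lin _ (fun q => covD A z x i q) N (eA j p)).trans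
        (mul_le_mul_of_nonneg_left (hXk i) (by linarith))
      refine (abs_sub _ _).trans ?_
      linarith
    have bz : ∀ k q, |dd k (fun y => z y q) x| ≤ X + N * Z := fun k q => by
      have e : dd k (fun y => z y q) x = covD A z x k q - ∑ r, A x k q r * z x r := by
        simp [covD]
      rw [e]
      refine (abs_sub _ _).trans (add_le_add ?_ (lin _ _ N (eA k q)))
      exact (abs_le_sum_abs (fun q => covD A z x k q) (Finset.mem_univ q)).trans (hXk k)
    set D := ((m : ℝ) + 1) * N ^ 2 * (2 * Z + X) with hD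
    have bdT : ∀ k p, |dd k (fun y => T y p) x| ≤ D := fun k p => by
      have dc : ∀ q, DifferentiableAt ℝ (fun y => curv A y i j p q) x := fun q =>
        (contDiff_curv hA i j p q).differentiable (by simp) x
      have dz : ∀ q, DifferentiableAt ℝ (fun y => z y q) x := fun q =>
        (contDiff_pi.1 hzc q).differentiable (by simp) x
      simp only [hT]
      rw [dd_sum (fun q _ => (dc q).fun_mul (dz q))]
      simp only [dd_mul (dc _) (dz _), Finset.sum_add_distrib]
      refine (abs_add_le _ _).trans ((add_le_add (lin _ _ N (edF k p)) (lin _ _ N (eF p))).trans ?_)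
      have h1 : ∑ q, |dd k (fun y => z y q) x| ≤ m * (X + N * Z) :=
        (Finset.sum_le_sum fun q _ => bz k q).trans (le_of_eq (by
          rw [Finset.sum_const, Finset.card_univ, Fintype.card_fin, nsmul_eq_mul]))
      have hN2 : N ≤ N ^ 2 := by nlinarith
      have hm0 : (0 : ℝ) ≤ m := Nat.cast_nonneg m
      calc N * Z + N * ∑ q, |dd k (fun y => z y q) x|
            ≤ N ^ 2 * Z + N * (m * (X + N * Z)) := by gcongr
        _ ≤ N ^ 2 * Z + (m * N ^ 2 * X + m * N ^ 2 * Z) := by
            have := mul_le_mul_of_nonneg_left hN2 (mul_nonneg hm0 hX0)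
            nlinarith
        _ ≤ D := by
            have : 0 ≤ N ^ 2 * X + (m + 1) * N ^ 2 * Z := by positivity
            nlinarith
    have bφ : ∀ p, |φ p x| ≤ M1 * (N * Z) := fun p => by
      simp only [hφ]; rw [abs_mul]; exact mul_le_mul hψ0 (bT p) (abs_nonneg _) hM10
    have bdφ : ∀ k p, |dd k (φ p) x| ≤ M1 * (N * Z) + M1 * D := fun k p => by
      simp only [hφ]
      rw [dd_mul (hψ.1.differentiable (by simp) x) ((hTc p).differentiable (by simp) x)]
      refine (abs_add_le _ _).trans (add_le_add ?_ ?_)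
      · rw [abs_mul]; exact mul_le_mul (hψ1 k) (bT p) (abs_nonneg _) hM10
      · rw [abs_mul]; exact mul_le_mul hψ0 (bdT k p) (abs_nonneg _) hM10
    have bW : |W x| ≤ 5 * M1 * N ^ 2 * ((m : ℝ) + 1) ^ 2 * ((2 * Z + X) * X) := by
      have hterm : ∀ p, |-(dd i (φ p) x * covD A z x j p) + dd j (φ p) x * covD A z x i p
          + φ p x * R x p| ≤ 5 * M1 * N ^ 2 * ((m : ℝ) + 1) * ((2 * Z + X) * X) := fun p => by
        have x1 : ∀ k, |covD A z x k p| ≤ X := fun k =>
          (abs_le_sum_abs (fun q => covD A z x k q) (Finset.mem_univ p)).trans (hXk k)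
        have P0 : 0 ≤ M1 * (N * Z) + M1 * D := by positivity
        have t1 : |dd i (φ p) x * covD A z x j p| ≤ (M1 * (N * Z) + M1 * D) * X := by
          rw [abs_mul]; exact mul_le_mul (bdφ i p) (x1 j) (abs_nonneg _) P0
        have t2 : |dd j (φ p) x * covD A z x i p| ≤ (M1 * (N * Z) + M1 * D) * X := by
          rw [abs_mul]; exact mul_le_mul (bdφ j p) (x1 i) (abs_nonneg _) P0
        have t3 : |φ p x * R x p| ≤ M1 * (N * Z) * (2 * N * X) := by
          rw [abs_mul]; exact mul_le_mul (bφ p) (bR p) (abs_nonneg _) (by positivity)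
        refine (abs_add_le _ _).trans ((add_le_add ((abs_add_le _ _).trans
          (add_le_add (le_of_eq_of_le (abs_neg _) t1) t2)) t3).trans ?_)
        have hN2 : N ≤ N ^ 2 := by nlinarith
        have q0 : 0 ≤ M1 * Z * X := by positivity
        have q1 : 0 ≤ M1 * N ^ 2 * (m : ℝ) * (2 * Z + X) * X := by positivity
        have q2 : 0 ≤ M1 * N ^ 2 * X * X := by positivity
        have q3 := mul_le_mul_of_nonneg_left hN2 q0
        have q4 : 0 ≤ M1 * N ^ 2 * Z * X := by positivity
        simp only [hD]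
        nlinarith
      refine (Finset.abs_sum_le_sum_abs _ _).trans ((Finset.sum_le_sum fun p _ => hterm p).trans ?_)
      simp only [Finset.sum_const, Finset.card_univ, Fintype.card_fin, nsmul_eq_mul]
      have hm0 : (0 : ℝ) ≤ m := Nat.cast_nonneg m
      have : 0 ≤ 5 * M1 * N ^ 2 * ((m : ℝ) + 1) * ((2 * Z + X) * X) := by positivity
      nlinarith
    have young : (2 * Z + X) * X ≤ θ * Z ^ 2 + 2 / θ * X ^ 2 := by
      have e : θ * Z ^ 2 + 2 / θ * X ^ 2 - (2 * Z + X) * X
          = 1 / θ * ((θ * Z - X) ^ 2 + (1 - θ) * X ^ 2) := by field_simp; ring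
      have : 0 ≤ 1 / θ * ((θ * Z - X) ^ 2 + (1 - θ) * X ^ 2) :=
        mul_nonneg (by positivity) (add_nonneg (sq_nonneg _) (mul_nonneg (by linarith) (sq_nonneg _)))
      linarith
    set S1 := ∑ p, z x p ^ 2 with hS1
    set S2 := ∑ k, ∑ p, covD A z x k p ^ 2 with hS2
    have cs1 : Z ^ 2 ≤ (3 * m + 1) * S1 := by
      have h := sq_sum_le_card_mul_sum_sq (s := Finset.univ) (f := fun q => |z x q|)
      simp only [sq_abs, Finset.card_univ, Fintype.card_fin] at h
      have hp : 0 ≤ S1 := Finset.sum_nonneg fun q _ => sq_nonneg _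
      nlinarith [Nat.cast_nonneg (α := ℝ) m]
    have cs2 : X ^ 2 ≤ (3 * m + 1) * S2 := by
      have h := sq_sum_le_card_mul_sum_sq (s := (Finset.univ : Finset (Fin 3)))
        (f := fun k => ∑ q, |covD A z x k q|)
      simp only [Finset.card_univ, Fintype.card_fin, Nat.cast_ofNat] at h
      refine h.trans ?_
      rw [hS2, Finset.mul_sum, Finset.mul_sum]
      refine Finset.sum_le_sum fun k _ => ?_
      have h' := sq_sum_le_card_mul_sum_sq (s := Finset.univ) (f := fun q => |covD A z x k q|)
      simp only [sq_abs, Finset.card_univ, Fintype.card_fin] at h'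
      have hp : 0 ≤ ∑ q, covD A z x k q ^ 2 := Finset.sum_nonneg fun q _ => sq_nonneg _
      nlinarith
    have w1 : S1 ≤ (wt a x * S1) / c := by
      rw [le_div_iff₀ hc, mul_comm S1]
      exact mul_le_mul_of_nonneg_right hcw (Finset.sum_nonneg fun q _ => sq_nonneg _)
    have w2 : S2 ≤ (rad a x ^ 2 * S2) / c := by
      rw [le_div_iff₀ hc, mul_comm S2]
      exact mul_le_mul_of_nonneg_right hcr (by positivity)
    set Q := 5 * M1 * N ^ 2 * ((m : ℝ) + 1) ^ 2 with hQ
    have hQ0 : 0 ≤ Q := by positivity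
    calc |W x| ≤ Q * ((2 * Z + X) * X) := bW
      _ ≤ Q * (θ * ((3 * m + 1) * (wt a x * S1 / c))
            + 2 / θ * ((3 * m + 1) * (rad a x ^ 2 * S2 / c))) := by
          refine mul_le_mul_of_nonneg_left (young.trans (add_le_add
            (mul_le_mul_of_nonneg_left (cs1.trans (mul_le_mul_of_nonneg_left w1 (by positivity)))
              hθ.le)
            (mul_le_mul_of_nonneg_left (cs2.trans (mul_le_mul_of_nonneg_left w2 (by positivity)))
              (by positivity)))) hQ0
      _ = B1 x + B2 x := by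
          simp only [hB1, hB2, hQ, hK, hN, hS1, hS2]
          ring
  · rw [integral_add iB1 iB2, hB1, hB2, integral_const_mul, integral_const_mul]
    have h0 : 0 ≤ K / c := by positivity
    have q1 := mul_le_mul_of_nonneg_left hl (mul_nonneg hθ.le h0)
    have q2 := mul_le_mul_of_nonneg_left hE (mul_nonneg (by positivity : 0 ≤ 2 / θ) h0)
    have q3 : 2 / θ * (K / c) * θ ^ 2 = 2 * (K / c) * θ := by field_simp
    nlinarith

/-- Pointwise comparison of a frame with an orthonormal one. -/
theorem frame_gap (v : Fin m → Fin m → ℝ) (F : Fin m → Fin m → ℝ) {N : ℝ}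
    (hF : ∀ p q, |F p q| ≤ N) :
    |∑ p, ∑ q, F p q ^ 2 - ∑ k, ∑ p, (∑ q, F p q * v k q) ^ 2|
      ≤ (m : ℝ) ^ 3 * N ^ 2 * ∑ k, ∑ l, |(∑ q, v k q * v l q) - if k = l then 1 else 0| := by
  set H : Fin m → Fin m → ℝ := fun q r => (∑ k, v k q * v k r) - if q = r then 1 else 0 with hH
  set G : Fin m → Fin m → ℝ := fun k l => (∑ q, v k q * v l q) - if k = l then 1 else 0 with hG
  have hfrob : ∑ q, ∑ r, H q r ^ 2 = ∑ k, ∑ l, G k l ^ 2 := by
    have e1 : ∑ q, ∑ r, (∑ k, v k q * v k r) ^ 2 = ∑ k, ∑ l, (∑ q, v k q * v l q) ^ 2 := by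
      simp only [sq, Finset.sum_mul_sum]
      rw [Finset.sum_congr rfl fun q _ => Finset.sum_comm, Finset.sum_comm,
        Finset.sum_congr rfl fun k _ => Finset.sum_congr rfl fun q _ => Finset.sum_comm,
        Finset.sum_congr rfl fun k _ => Finset.sum_comm]
      refine Finset.sum_congr rfl fun k _ => Finset.sum_congr rfl fun l _ =>
        Finset.sum_congr rfl fun q _ => Finset.sum_congr rfl fun r _ => ?_
      ring
    simp only [hH, hG, sub_sq, Finset.sum_add_distrib, Finset.sum_sub_distrib, e1, mul_ite,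
      mul_one, mul_zero, ite_pow, one_pow, ne_eq, OfNat.ofNat_ne_zero, not_false_eq_true,
      zero_pow, Finset.sum_ite_eq, Finset.mem_univ, if_true]
    congr 2
    simp only [Finset.mul_sum]
    rw [Finset.sum_comm]
  set g := ∑ k, ∑ l, |G k l| with hg
  have hHg : ∀ q r, |H q r| ≤ g := by
    intro q r
    have h1 : H q r ^ 2 ≤ ∑ q, ∑ r, H q r ^ 2 :=
      (Finset.single_le_sum (f := fun r => H q r ^ 2) (fun _ _ => sq_nonneg _)
        (Finset.mem_univ r)).trans (Finset.single_le_sum (f := fun q => ∑ r, H q r ^ 2)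
        (fun _ _ => Finset.sum_nonneg fun _ _ => sq_nonneg _) (Finset.mem_univ q))
    have hg0 : 0 ≤ g := by positivity
    have h2 : ∑ k, ∑ l, G k l ^ 2 ≤ g ^ 2 := by
      rw [sq g]
      conv_rhs => rw [hg, Finset.sum_mul]
      refine Finset.sum_le_sum fun k _ => ?_
      rw [Finset.sum_mul]
      refine Finset.sum_le_sum fun l _ => ?_
      rw [← sq_abs, sq]
      exact mul_le_mul_of_nonneg_left
        ((abs_le_sum_abs (fun l => G k l) (Finset.mem_univ l)).trans
          (Finset.single_le_sum (f := fun k => ∑ l, |G k l|)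
            (fun _ _ => Finset.sum_nonneg fun _ _ => abs_nonneg _) (Finset.mem_univ k)))
        (abs_nonneg _)
    exact abs_le_of_sq_le_sq (by linarith [hfrob]) hg0
  have e : ∑ p, ∑ q, F p q ^ 2 - ∑ k, ∑ p, (∑ q, F p q * v k q) ^ 2
      = -∑ p, ∑ q, ∑ r, F p q * F p r * H q r := by
    rw [Finset.sum_comm (f := fun k p => (∑ q, F p q * v k q) ^ 2), ← Finset.sum_sub_distrib,
      ← Finset.sum_neg_distrib]
    refine Finset.sum_congr rfl fun p _ => ?_
    have e2 : ∑ k, (∑ q, F p q * v k q) ^ 2 = ∑ q, ∑ r, F p q * F p r * ∑ k, v k q * v k r := by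
      simp only [sq, Finset.sum_mul_sum]
      rw [Finset.sum_comm, Finset.sum_congr rfl fun q _ => Finset.sum_comm]
      refine Finset.sum_congr rfl fun q _ => Finset.sum_congr rfl fun r _ => ?_
      rw [Finset.mul_sum]
      exact Finset.sum_congr rfl fun k _ => by ring
    simp only [e2, hH, mul_sub, Finset.sum_sub_distrib, mul_ite, mul_one, mul_zero,
      Finset.sum_ite_eq, Finset.mem_univ, if_true]
    simp only [sq]
    ring
  rw [e, abs_neg]
  calc |∑ p, ∑ q, ∑ r, F p q * F p r * H q r|
        ≤ ∑ p, ∑ q, ∑ r, |F p q * F p r * H q r| :=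
        (Finset.abs_sum_le_sum_abs _ _).trans (Finset.sum_le_sum fun p _ =>
          (Finset.abs_sum_le_sum_abs _ _).trans
            (Finset.sum_le_sum fun q _ => Finset.abs_sum_le_sum_abs _ _))
    _ ≤ ∑ _p : Fin m, ∑ _q : Fin m, ∑ _r : Fin m, N ^ 2 * g := by
        refine Finset.sum_le_sum fun p _ => Finset.sum_le_sum fun q _ => Finset.sum_le_sum fun r _ => ?_
        rw [abs_mul, abs_mul, sq]
        exact mul_le_mul (mul_le_mul (hF p q) (hF p r) (abs_nonneg _)
          ((abs_nonneg _).trans (hF p q))) (hHg q r) (abs_nonneg _) (mul_self_nonneg N)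
    _ = (m : ℝ) ^ 3 * N ^ 2 * g := by simp; ring

theorem excess_sub_le (hs : AboveEuclid a b sig) {x : Sp} (hx : x ∈ closure (shell a b))
    (u v : Fin 3 → Fin m → ℝ) :
    excess sig x (fun i p => u i p - v i p) ≤ 2 * excess sig x u + 2 * excess sig x v := by
  have h := excess_nonneg hs hx (fun i p => u i p + v i p)
  have e : excess sig x (fun i p => u i p - v i p) + excess sig x (fun i p => u i p + v i p)
      = 2 * excess sig x u + 2 * excess sig x v := by
    simp only [excess, Finset.mul_sum, ← Finset.sum_add_distrib]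
    exact Finset.sum_congr rfl fun p _ => Finset.sum_congr rfl fun i _ =>
      Finset.sum_congr rfl fun j _ => by ring
  linarith

end Vale.Agent.P088
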