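import Vale.Agent.P088.Approx

/-! Nearly parallel fields have nearly constant inner products (P088). -/

open MeasureTheory Set
open scoped ContDiff

namespace Vale.Agent.P088

variable {a b : ℝ} {m : ℕ} {A : Conn m}

theorem continuousOn_grad_sq (ha : 0 < a) (hA : IsOrthConn A) {z : Sp → Fin m → ℝ}
    (hz : ContDiff ℝ ∞ z) :
    ContinuousOn (fun x => rad a x ^ 2 * ∑ i, ∑ p, covD A z x i p ^ 2) (closure (shell a b)) :=
  ((contOn ha contDiffOn_rad).pow 2).mul
    (continuousOn_finsetSum _ fun i _ => continuousOn_finsetSum _ fun p _ =>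
      (contDiff_covD hA hz i p).continuous.continuousOn.pow 2)

theorem continuousOn_len (ha : 0 < a) {z : Sp → Fin m → ℝ} (hz : ContDiff ℝ ∞ z) :
    ContinuousOn (fun x => wt a x * ∑ p, z x p ^ 2) (closure (shell a b)) :=
  (contOn ha contDiffOn_wt).mul
    (continuousOn_finsetSum _ fun p _ => (contDiff_pi.1 hz p).continuous.continuousOn.pow 2)

/-- Nearly parallel fields are bounded in the weighted square mean. -/
theorem exists_len_bound (ha : 0 < a) (hA : IsOrthConn A) (e : Fin m → ℝ) :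
    ∃ L, 0 ≤ L ∧ ∀ θ, 0 < θ → θ ≤ 1 → ∀ z, Approx a b A e θ z →
      ∫ x in shell a b, wt a x * ∑ p, z x p ^ 2 ≤ L := by
  set Ω := shell a b with hΩ
  have ho : IsOpen Ω := isOpen_shell
  have hb : Bornology.IsBounded Ω := isBounded_shell
  set c := ∑ p, e p ^ 2 with hc
  have hc0 : 0 ≤ c := Finset.sum_nonneg fun p _ => sq_nonneg _
  have iw : IntegrableOn (wt a) Ω := intOn hb (contOn ha contDiffOn_wt)
  have hw0 : 0 ≤ ∫ x in Ω, wt a x :=
    setIntegral_nonneg ho.measurableSet fun x hx => (wt_pos ha hx).le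
  refine ⟨2 / a + 2 * (1 + c) * ∫ x in Ω, wt a x, by positivity, fun θ hθ hθ1 z hz => ?_⟩
  obtain ⟨hzc, ⟨-, hw2, hw3⟩, hE⟩ := hz
  set g : Sp → ℝ := fun x => 1 + ∑ p, z x p ^ 2 with hg
  have hg1 : ∀ x, 1 ≤ g x := fun x => by
    have : 0 ≤ ∑ p, z x p ^ 2 := Finset.sum_nonneg fun p _ => sq_nonneg _
    simp only [hg]; linarith
  have hgc : ContDiff ℝ ∞ g := contDiff_const.add (ContDiff.sum fun p _ => (contDiff_pi.1 hzc p).pow 2)
  have hrc : ContDiff ℝ ∞ fun x => Real.sqrt (g x) := hgc.sqrt fun x => by linarith [hg1 x]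
  set q : Sp → ℝ := fun x => Real.sqrt (g x) - Real.sqrt (1 + c) with hq
  have hqc : ContDiff ℝ ∞ q := hrc.sub contDiff_const
  have hsupp : tsupport (fun x => q x ^ 2) ⊆ tsupport (fun x p => z x p - e p) := by
    refine closure_mono fun x hx hx0 => hx ?_
    have : ∀ p, z x p = e p := fun p => sub_eq_zero.1 (congrFun hx0 p)
    simp [hq, hg, hc, this]
  have hft : IsTestFun Ω fun x => q x ^ 2 :=
    ⟨hqc.pow 2, hw2.of_isClosed_subset (isClosed_tsupport _) hsupp, hsupp.trans hw3⟩
  have hdq : ∀ x i, dd i q x ^ 2 ≤ ∑ p, covD A z x i p ^ 2 := by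
    intro x i
    have hgx : 0 < g x := by linarith [hg1 x]
    have e1 : dd i g x = 2 * ∑ p, z x p * covD A z x i p := by
      rw [← dd_sq_sum hA hzc x i]
      unfold dd
      rw [hg, fderiv_const_add]
    have e2 : dd i q x = (∑ p, z x p * covD A z x i p) / Real.sqrt (g x) := by
      have H := ((hgc.differentiable (by simp) x).hasFDerivAt.sqrt hgx.ne').sub_const
        (Real.sqrt (1 + c))
      unfold dd at e1 ⊢
      rw [hq, H.fderiv]
      simp [e1]
      field_simp
    rw [e2, div_pow, Real.sq_sqrt hgx.le, div_le_iff₀ hgx]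
    refine (Finset.sum_mul_sq_le_sq_mul_sq _ _ _).trans ?_
    rw [mul_comm (∑ p, covD A z x i p ^ 2)]
    exact mul_le_mul_of_nonneg_right (by simp only [hg]; linarith)
      (Finset.sum_nonneg fun p _ => sq_nonneg _)
  have cdr : ∀ i, ContinuousOn (dd i (rad a)) (closure Ω) := fun i =>
    contOn ha (contDiffOn_dd isOpen_punctured contDiffOn_rad i)
  have iQ : IntegrableOn (fun x => wt a x * q x ^ 2) Ω :=
    intOn hb ((contOn ha contDiffOn_wt).mul (hqc.continuous.continuousOn.pow 2))
  have iG := intOn hb (continuousOn_grad_sq (b := b) ha hA hzc)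
  have iGa : IntegrableOn (fun x => 1 / a * (rad a x ^ 2 * ∑ i, ∑ p, covD A z x i p ^ 2)) Ω :=
    iG.const_mul _
  have iL : IntegrableOn
      (fun x => -∑ i, dd i (fun y => q y ^ 2) x * (rad a x ^ 2 * dd i (rad a) x)) Ω :=
    intOn hb (continuousOn_finsetSum _ fun i _ =>
      (contDiff_dd hft.1 i).continuous.continuousOn.mul
        (((contOn ha contDiffOn_rad).pow 2).mul (cdr i))).neg
  have iR : IntegrableOn
      (fun x => wt a x * q x ^ 2 + 1 / a * (rad a x ^ 2 * ∑ i, ∑ p, covD A z x i p ^ 2)) Ω :=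
    iQ.add iGa
  have key : 2 * ∫ x in Ω, wt a x * q x ^ 2
      ≤ (∫ x in Ω, wt a x * q x ^ 2) + 1 / a * θ ^ 2 := by
    rw [weighted_ibp ha hft, ← integral_neg]
    refine (setIntegral_mono_on iL iR ho.measurableSet fun x hx => ?_).trans ?_
    · have hr := (rad_pos ha hx.1).le
      have h3 : rad a x ^ 3 * ∑ i, dd i q x ^ 2
          ≤ 1 / a * (rad a x ^ 2 * ∑ i, ∑ p, covD A z x i p ^ 2) := by
        rw [pow_succ' (rad a x) 2, mul_assoc]
        exact mul_le_mul (rad_le ha) (mul_le_mul_of_nonneg_left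
          (Finset.sum_le_sum fun i _ => hdq x i) (sq_nonneg _)) (by positivity) (by positivity)
      refine le_trans ?_ (add_le_add (le_refl _) h3)
      have hd : ∀ i, dd i (fun y => q y ^ 2) x = 2 * q x * dd i q x := fun i => by
        simp only [sq]
        rw [dd_mul (hqc.differentiable (by simp) x) (hqc.differentiable (by simp) x)]
        ring
      simp only [hd, wt, Fin.sum_univ_three]
      nlinarith [mul_nonneg hr (sq_nonneg (q x * dd 0 (rad a) x + rad a x * dd 0 q x)),
        mul_nonneg hr (sq_nonneg (q x * dd 1 (rad a) x + rad a x * dd 1 q x)),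
        mul_nonneg hr (sq_nonneg (q x * dd 2 (rad a) x + rad a x * dd 2 q x))]
    · rw [integral_add iQ iGa, integral_const_mul]
      exact add_le_add le_rfl (mul_le_mul_of_nonneg_left hE (by positivity))
  have hθ2 : θ ^ 2 ≤ 1 := pow_le_one₀ hθ.le hθ1
  have hQ : ∫ x in Ω, wt a x * q x ^ 2 ≤ 1 / a := by
    have : 1 / a * θ ^ 2 ≤ 1 / a := mul_le_of_le_one_right (by positivity) hθ2
    linarith
  have iQ2 : IntegrableOn (fun x => 2 * (wt a x * q x ^ 2)) Ω := iQ.const_mul 2
  have iW2 : IntegrableOn (fun x => 2 * (1 + c) * wt a x) Ω := iw.const_mul _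
  have iS : IntegrableOn (fun x => 2 * (wt a x * q x ^ 2) + 2 * (1 + c) * wt a x) Ω := iQ2.add iW2
  refine (setIntegral_mono_on (intOn hb (continuousOn_len ha hzc)) iS ho.measurableSet
    fun x hx => ?_).trans ?_
  · have hs : Real.sqrt (g x) ^ 2 = g x := Real.sq_sqrt (by linarith [hg1 x])
    have ht : Real.sqrt (1 + c) ^ 2 = 1 + c := Real.sq_sqrt (by linarith)
    have hw := (wt_pos ha hx).le
    have h1 : ∑ p, z x p ^ 2 ≤ 2 * q x ^ 2 + 2 * (1 + c) := by
      simp only [hq]
      have hgx : g x = 1 + ∑ p, z x p ^ 2 := rfl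
      nlinarith [sq_nonneg (Real.sqrt (g x) - 2 * Real.sqrt (1 + c))]
    nlinarith [mul_le_mul_of_nonneg_left h1 hw]
  · rw [integral_add iQ2 iW2, integral_const_mul, integral_const_mul]
    have : 2 / a = 2 * (1 / a) := by ring
    linarith

/-- The inner product of two nearly parallel fields, minus its boundary value. -/
noncomputable def gram (e e' : Fin m → ℝ) (z z' : Sp → Fin m → ℝ) (x : Sp) : ℝ :=
  (∑ p, z x p * z' x p) - ∑ p, e p * e' p

theorem exists_gram_bound (ha : 0 < a) (hA : IsOrthConn A) (e e' : Fin m → ℝ) :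
    ∃ C, 0 ≤ C ∧ ∀ θ, 0 < θ → θ ≤ 1 → ∀ z z', Approx a b A e θ z → Approx a b A e' θ z' →
      ∫ x in shell a b, wt a x * |gram e e' z z' x| ≤ C * θ := by
  set Ω := shell a b with hΩ
  have ho : IsOpen Ω := isOpen_shell
  have hb : Bornology.IsBounded Ω := isBounded_shell
  obtain ⟨L, hL, hbound⟩ := exists_len_bound (b := b) ha hA e
  obtain ⟨L', hL', hbound'⟩ := exists_len_bound (b := b) ha hA e'
  have hw0 : 0 ≤ ∫ x in Ω, wt a x :=
    setIntegral_nonneg ho.measurableSet fun x hx => (wt_pos ha hx).le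
  refine ⟨(L + L') / a + 2, by positivity, fun θ hθ hθ1 z z' hz hz' => ?_⟩
  have hl := hbound θ hθ hθ1 z hz
  have hl' := hbound' θ hθ hθ1 z' hz'
  obtain ⟨hzc, ⟨-, hw2, hw3⟩, hE⟩ := hz
  obtain ⟨hzc', ⟨-, hw2', hw3'⟩, hE'⟩ := hz'
  set G := gram e e' z z' with hG
  have hGc : ContDiff ℝ ∞ G :=
    (ContDiff.sum fun p _ => (contDiff_pi.1 hzc p).mul (contDiff_pi.1 hzc' p)).sub contDiff_const
  have cdr : ∀ i, ContinuousOn (dd i (rad a)) (closure Ω) := fun i =>
    contOn ha (contDiffOn_dd isOpen_punctured contDiffOn_rad i)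
  have hdG : ∀ x i, dd i G x = ∑ p, (covD A z x i p * z' x p + z x p * covD A z' x i p) := by
    intro x i
    have d : ∀ (v : Sp → Fin m → ℝ), ContDiff ℝ ∞ v → ∀ p, DifferentiableAt ℝ (fun y => v y p) x :=
      fun v hv p => (contDiff_pi.1 hv p).differentiable (by simp) x
    have e0 : dd i G x = dd i (fun y => ∑ p, z y p * z' y p) x := by
      rw [hG]; unfold dd gram; rw [fderiv_sub_const]
    rw [e0, dd_sum (fun p _ => (d z hzc p).fun_mul (d z' hzc' p)) i]
    simp only [dd_mul (d z hzc _) (d z' hzc' _), covD, add_mul, mul_add, Finset.sum_add_distrib]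
    have e1 : ∑ p, (∑ q, A x i p q * z x q) * z' x p = -∑ p, z x p * ∑ q, A x i p q * z' x q := by
      simp only [Finset.sum_mul, Finset.mul_sum, ← Finset.sum_neg_distrib]
      rw [Finset.sum_comm]
      refine Finset.sum_congr rfl fun p _ => Finset.sum_congr rfl fun q _ => ?_
      rw [hA.2 x i q p]; ring
    linarith
  refine le_of_forall_pos_le_add fun η hη => ?_
  set η' := (η / ((∫ x in Ω, wt a x) + 1)) ^ 2 with hη'
  have hη0 : 0 < η' := by positivity
  have hsη : Real.sqrt η' * (∫ x in Ω, wt a x) ≤ η := by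
    rw [hη', Real.sqrt_sq (by positivity), div_mul_eq_mul_div, div_le_iff₀ (by positivity)]
    exact mul_le_mul_of_nonneg_left (by linarith) hη.le
  set f : Sp → ℝ := fun x => Real.sqrt (G x ^ 2 + η') - Real.sqrt η' with hf
  have hgp : ∀ x, 0 < G x ^ 2 + η' := fun x => by positivity
  have hfc : ContDiff ℝ ∞ f :=
    (((hGc.pow 2).add contDiff_const).sqrt fun x => (hgp x).ne').sub contDiff_const
  have hsupp : tsupport f ⊆
      tsupport (fun x p => z x p - e p) ∪ tsupport (fun x p => z' x p - e' p) := by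
    refine closure_minimal (fun x hx => ?_) ((isClosed_tsupport _).union (isClosed_tsupport _))
    by_contra hn
    simp only [mem_union, not_or] at hn
    have h1 : ∀ p, z x p = e p := fun p =>
      sub_eq_zero.1 (congrFun (image_eq_zero_of_notMem_tsupport hn.1) p)
    have h2 : ∀ p, z' x p = e' p := fun p =>
      sub_eq_zero.1 (congrFun (image_eq_zero_of_notMem_tsupport hn.2) p)
    exact hx (by simp [hf, hG, gram, h1, h2])
  have hft : IsTestFun Ω f :=
    ⟨hfc, (hw2.isCompact.union hw2'.isCompact).of_isClosed_subset (isClosed_tsupport _) hsupp,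
      hsupp.trans (union_subset hw3 hw3')⟩
  have hdf : ∀ x i, |dd i f x| ≤ |dd i G x| := by
    intro x i
    have hs := Real.sqrt_pos.2 (hgp x)
    have H := (((hGc.differentiable (by simp) x).hasFDerivAt.pow 2).add_const η').sqrt (hgp x).ne'
    have H' := H.sub_const (Real.sqrt η')
    have e1 : dd i f x = G x * dd i G x / Real.sqrt (G x ^ 2 + η') := by
      unfold dd
      rw [hf, H'.fderiv]
      simp
      field_simp
    rw [e1, abs_div, abs_mul, abs_of_pos hs, div_le_iff₀ hs, mul_comm |dd i G x|]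
    exact mul_le_mul_of_nonneg_right
      (Real.abs_le_sqrt (by linarith)) (abs_nonneg _)
  have cF : ContinuousOn (fun x => wt a x * f x) (closure Ω) :=
    (contOn ha contDiffOn_wt).mul hfc.continuous.continuousOn
  have iL := intOn hb (continuousOn_len (b := b) ha hzc)
  have iL' := intOn hb (continuousOn_len (b := b) ha hzc')
  have iG := intOn hb (continuousOn_grad_sq (b := b) ha hA hzc)
  have iG' := intOn hb (continuousOn_grad_sq (b := b) ha hA hzc')
  have j1 : IntegrableOn (fun x => θ / a * (wt a x * ∑ p, z x p ^ 2)) Ω := iL.const_mul _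
  have j2 : IntegrableOn (fun x => θ / a * (wt a x * ∑ p, z' x p ^ 2)) Ω := iL'.const_mul _
  have j3 : IntegrableOn (fun x => 1 / θ * (rad a x ^ 2 * ∑ i, ∑ p, covD A z x i p ^ 2)) Ω :=
    iG.const_mul _
  have j4 : IntegrableOn (fun x => 1 / θ * (rad a x ^ 2 * ∑ i, ∑ p, covD A z' x i p ^ 2)) Ω :=
    iG'.const_mul _
  have j12 : IntegrableOn (fun x => θ / a * (wt a x * ∑ p, z x p ^ 2)
      + θ / a * (wt a x * ∑ p, z' x p ^ 2)) Ω := j1.add j2
  have j123 : IntegrableOn (fun x => θ / a * (wt a x * ∑ p, z x p ^ 2)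
      + θ / a * (wt a x * ∑ p, z' x p ^ 2)
      + 1 / θ * (rad a x ^ 2 * ∑ i, ∑ p, covD A z x i p ^ 2)) Ω := j12.add j3
  have j1234 : IntegrableOn (fun x => θ / a * (wt a x * ∑ p, z x p ^ 2)
      + θ / a * (wt a x * ∑ p, z' x p ^ 2)
      + 1 / θ * (rad a x ^ 2 * ∑ i, ∑ p, covD A z x i p ^ 2)
      + 1 / θ * (rad a x ^ 2 * ∑ i, ∑ p, covD A z' x i p ^ 2)) Ω := j123.add j4
  have iN : IntegrableOn (fun x => -∑ i, dd i f x * (rad a x ^ 2 * dd i (rad a) x)) Ω :=
    intOn hb (continuousOn_finsetSum _ fun i _ =>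
      (contDiff_dd hfc i).continuous.continuousOn.mul
        (((contOn ha contDiffOn_rad).pow 2).mul (cdr i))).neg
  have key : 2 * ∫ x in Ω, wt a x * f x ≤ ((L + L') / a + 2) * θ := by
    rw [weighted_ibp ha hft, ← integral_neg]
    refine (setIntegral_mono_on iN j1234 ho.measurableSet fun x hx => ?_).trans ?_
    · have hr := (rad_pos ha hx.1).le
      have p1 : ∀ (i : Fin 3) (u w : ℝ), |w * u * (rad a x ^ 2 * dd i (rad a) x)|
          ≤ θ * (rad a x ^ 2 * dd i (rad a) x ^ 2 * w ^ 2) + 1 / θ * (rad a x ^ 2 * u ^ 2) := by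
        intro i u w
        have k : ∀ s t : ℝ, |s * t| ≤ θ * s ^ 2 + 1 / θ * t ^ 2 := by
          intro s t
          have e : θ * s ^ 2 + 1 / θ * t ^ 2 - |s * t|
              = 1 / θ * ((θ * |s| - |t| / 2) ^ 2 + 3 / 4 * |t| ^ 2) := by
            rw [abs_mul, ← sq_abs s, ← sq_abs t]; field_simp; ring
          have : 0 ≤ 1 / θ * ((θ * |s| - |t| / 2) ^ 2 + 3 / 4 * |t| ^ 2) := by positivity
          linarith
        calc |w * u * (rad a x ^ 2 * dd i (rad a) x)|
              = |(rad a x * dd i (rad a) x * w) * (rad a x * u)| := by congr 1; ring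
          _ ≤ _ := (k _ _).trans (le_of_eq (by ring))
      calc -∑ i, dd i f x * (rad a x ^ 2 * dd i (rad a) x)
            ≤ ∑ i, |dd i f x * (rad a x ^ 2 * dd i (rad a) x)| :=
            (neg_le_abs _).trans (Finset.abs_sum_le_sum_abs _ _)
        _ ≤ ∑ i, ∑ p, ((θ * (rad a x ^ 2 * dd i (rad a) x ^ 2 * z' x p ^ 2)
              + 1 / θ * (rad a x ^ 2 * covD A z x i p ^ 2))
              + (θ * (rad a x ^ 2 * dd i (rad a) x ^ 2 * z x p ^ 2)
              + 1 / θ * (rad a x ^ 2 * covD A z' x i p ^ 2))) := by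
            refine Finset.sum_le_sum fun i _ => ?_
            rw [abs_mul]
            refine (mul_le_mul_of_nonneg_right (hdf x i) (abs_nonneg _)).trans ?_
            rw [← abs_mul, hdG, Finset.sum_mul]
            refine (Finset.abs_sum_le_sum_abs _ _).trans (Finset.sum_le_sum fun p _ => ?_)
            rw [add_mul, mul_comm (covD A z x i p) (z' x p)]
            exact (abs_add_le _ _).trans (add_le_add (p1 i _ _) (p1 i _ _))
        _ = θ * rad a x * (wt a x * ∑ p, z' x p ^ 2) + 1 / θ * (rad a x ^ 2 * ∑ i, ∑ p, covD A z x i p ^ 2)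
              + (θ * rad a x * (wt a x * ∑ p, z x p ^ 2)
              + 1 / θ * (rad a x ^ 2 * ∑ i, ∑ p, covD A z' x i p ^ 2)) := by
            simp only [Finset.sum_add_distrib, wt, ← Finset.mul_sum, ← Finset.sum_mul]
            ring
        _ ≤ _ := by
            have hw := (wt_pos ha hx).le
            have hθa : θ * rad a x ≤ θ / a := by
              rw [div_eq_mul_inv, ← one_div]; exact mul_le_mul_of_nonneg_left (rad_le ha) hθ.le
            have q1 := mul_le_mul_of_nonneg_right hθa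
              (mul_nonneg hw (Finset.sum_nonneg (s := Finset.univ) fun (p : Fin m) _ => sq_nonneg (z x p)))
            have q2 := mul_le_mul_of_nonneg_right hθa
              (mul_nonneg hw (Finset.sum_nonneg (s := Finset.univ) fun (p : Fin m) _ => sq_nonneg (z' x p)))
            linarith
    · rw [integral_add j123 j4, integral_add j12 j3, integral_add j1 j2, integral_const_mul,
        integral_const_mul, integral_const_mul, integral_const_mul]
      have q1 := mul_le_mul_of_nonneg_left hl (by positivity : 0 ≤ θ / a)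
      have q2 := mul_le_mul_of_nonneg_left hl' (by positivity : 0 ≤ θ / a)
      have q3 := mul_le_mul_of_nonneg_left hE (by positivity : 0 ≤ 1 / θ)
      have q4 := mul_le_mul_of_nonneg_left hE' (by positivity : 0 ≤ 1 / θ)
      have q5 : 1 / θ * θ ^ 2 = θ := by field_simp
      have q6 : ((L + L') / a + 2) * θ = θ / a * L + θ / a * L' + θ + θ := by ring
      linarith
  have hW : IntegrableOn (wt a) Ω := intOn hb (contOn ha contDiffOn_wt)
  have iF := intOn hb cF
  have iWη : IntegrableOn (fun x => Real.sqrt η' * wt a x) Ω := hW.const_mul _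
  have iS : IntegrableOn (fun x => wt a x * f x + Real.sqrt η' * wt a x) Ω := iF.add iWη
  have iA : IntegrableOn (fun x => wt a x * |G x|) Ω :=
    intOn hb ((contOn ha contDiffOn_wt).mul hGc.continuous.continuousOn.abs)
  refine (setIntegral_mono_on iA iS ho.measurableSet fun x hx => ?_).trans ?_
  · have h1 : |G x| ≤ Real.sqrt (G x ^ 2 + η') := Real.abs_le_sqrt (by linarith)
    have := mul_le_mul_of_nonneg_left h1 (wt_pos ha hx).le
    simp only [hf]; linarith [mul_comm (wt a x) (Real.sqrt η')]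
  · rw [integral_add iF iWη, integral_const_mul]
    have : 0 ≤ ∫ x in Ω, wt a x * f x := setIntegral_nonneg ho.measurableSet fun x hx =>
      mul_nonneg (wt_pos ha hx).le (sub_nonneg.2 (Real.sqrt_le_sqrt (by nlinarith [sq_nonneg (G x)])))
    linarith

end Vale.Agent.P088
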