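import Vale.Agent.P088.Main

/-! Linear transport along segments which end on the outer sphere (P088). -/

open Set Metric
open scoped ContDiff NNReal

namespace Vale.Agent.P088

set_option maxSynthPendingDepth 3

variable {a b : ℝ} {m : ℕ} {A : Conn m}

/-- Values in the fibre. -/
abbrev Fib (m : ℕ) := Fin m → ℝ

/-- A connection as a form with values in operators on the fibre. -/
noncomputable def conOp (A : Conn m) (x : Sp) : Sp →L[ℝ] Fib m →L[ℝ] Fib m :=
  ∑ i, ∑ p, ∑ q, A x i p q •
    (ContinuousLinearMap.proj i : Sp →L[ℝ] ℝ).smulRight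
      ((ContinuousLinearMap.proj q : Fib m →L[ℝ] ℝ).smulRight (Pi.single p (1 : ℝ) : Fib m))

theorem conOp_apply (x u : Sp) (v : Fib m) (p : Fin m) :
    conOp A x u v p = ∑ i, ∑ q, u i * (A x i p q * v q) := by
  simp [conOp, Pi.single_apply]
  refine Finset.sum_congr rfl fun i _ => Finset.sum_congr rfl fun q _ => ?_
  ring

theorem contDiff_conOp (hA : IsOrthConn A) : ContDiff ℝ ∞ (conOp A) :=
  ContDiff.sum fun i _ => ContDiff.sum fun p _ => ContDiff.sum fun q _ =>
    (hA.1 i p q).smul contDiff_const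

theorem fderiv_conOp_apply (hA : IsOrthConn A) (x u w : Sp) (v : Fib m) (p : Fin m) :
    fderiv ℝ (conOp A) x u w v p
      = ∑ i, ∑ q, w i * ((∑ j, u j * dd j (fun y => A y i p q) x) * v q) := by
  let ev : (Sp →L[ℝ] Fib m →L[ℝ] Fib m) →L[ℝ] ℝ :=
    (ContinuousLinearMap.proj p : Fib m →L[ℝ] ℝ).comp
      ((ContinuousLinearMap.apply ℝ (Fib m) v).comp
        (ContinuousLinearMap.apply ℝ (Fib m →L[ℝ] Fib m) w))
  have d : DifferentiableAt ℝ (conOp A) x := (contDiff_conOp hA).differentiable (by simp) x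
  have H : HasFDerivAt (fun y => ∑ i, ∑ q, w i * (A y i p q * v q))
      (ev.comp (fderiv ℝ (conOp A) x)) x := by
    have e : (fun y => ∑ i, ∑ q, w i * (A y i p q * v q)) = ev ∘ conOp A :=
      funext fun y => (conOp_apply y w v p).symm
    rw [e]; exact ev.hasFDerivAt.comp x d.hasFDerivAt
  have H2 : HasFDerivAt (fun y => ∑ i, ∑ q, w i * (A y i p q * v q))
      (∑ i, ∑ q, w i • (v q • fderiv ℝ (fun y => A y i p q) x)) x :=
    HasFDerivAt.fun_sum fun i _ => HasFDerivAt.fun_sum fun q _ =>
      (((hA.1 i p q).differentiable (by simp) x).hasFDerivAt.mul_const (v q)).const_mul (w i)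
  have e := congrArg (fun T : Sp →L[ℝ] ℝ => T u) (H.unique H2)
  have lin : ∀ f : Sp →L[ℝ] ℝ, f u = ∑ j, u j * f (Pi.single j 1) := fun f => by
    conv_lhs => rw [show u = ∑ j, u j • (Pi.single j (1 : ℝ) : Sp) from by
      ext k; simp [Finset.sum_apply, Pi.single_apply]]
    simp
  simp only [dd]
  refine e.trans ?_
  simp [lin (fderiv ℝ (fun y => A y _ p _) x), mul_comm]

/-- Vanishing curvature, written with operators. -/
theorem conOp_flat (hA : IsOrthConn A) {x : Sp} (hflat : ∀ i j p q, curv A x i j p q = 0)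
    (u w : Sp) (v : Fib m) :
    fderiv ℝ (conOp A) x u w v - fderiv ℝ (conOp A) x w u v
      + conOp A x u (conOp A x w v) - conOp A x w (conOp A x u v) = 0 := by
  funext p
  have key : ∀ i j, (∑ q, dd i (fun y => A y j p q) x * v q) - (∑ q, dd j (fun y => A y i p q) x * v q)
      + (∑ r, A x i p r * ∑ q, A x j r q * v q) - (∑ r, A x j p r * ∑ q, A x i r q * v q) = 0 := by
    intro i j
    have c : ∀ i j : Fin 3, ∑ r, A x i p r * ∑ q, A x j r q * v q
        = ∑ q, (∑ r, A x i p r * A x j r q) * v q := fun i j => by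
      simp only [Finset.mul_sum, Finset.sum_mul, mul_assoc]
      exact Finset.sum_comm
    rw [c, c, ← Finset.sum_sub_distrib, ← Finset.sum_add_distrib, ← Finset.sum_sub_distrib]
    refine Finset.sum_eq_zero fun q _ => ?_
    have h := hflat i j p q
    simp only [curv, Finset.sum_sub_distrib] at h
    linear_combination v q * h
  have e1 : ∀ u w : Sp, fderiv ℝ (conOp A) x u w v p
      = ∑ i, ∑ j, u i * (w j * ∑ q, dd i (fun y => A y j p q) x * v q) := by
    intro u w
    rw [fderiv_conOp_apply hA, Finset.sum_comm (s := Finset.univ (α := Fin 3))]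
    simp only [Finset.sum_mul, Finset.mul_sum]
    rw [Finset.sum_comm]
    refine (Finset.sum_congr rfl fun j _ => Finset.sum_comm).trans ?_
    rw [Finset.sum_comm]
    exact Finset.sum_congr rfl fun i _ => Finset.sum_congr rfl fun j _ =>
      Finset.sum_congr rfl fun q _ => by ring
  have e2 : ∀ u w : Sp, conOp A x u (conOp A x w v) p
      = ∑ i, ∑ j, u i * (w j * ∑ r, A x i p r * ∑ q, A x j r q * v q) := by
    intro u w
    simp only [conOp_apply, Finset.mul_sum]
    refine Finset.sum_congr rfl fun i _ => ?_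
    rw [Finset.sum_comm]
    exact Finset.sum_congr rfl fun j _ => Finset.sum_congr rfl fun r _ =>
      Finset.sum_congr rfl fun q _ => by ring
  simp only [Pi.add_apply, Pi.sub_apply, Pi.zero_apply, e1, e2]
  rw [Finset.sum_comm (f := fun i j => w i * (u j * ∑ q, dd i (fun y => A y j p q) x * v q)),
    Finset.sum_comm (f := fun i j => w i * (u j * ∑ r, A x i p r * ∑ q, A x j r q * v q))]
  simp only [← Finset.sum_sub_distrib, ← Finset.sum_add_distrib]
  refine Finset.sum_eq_zero fun i _ => Finset.sum_eq_zero fun j _ => ?_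
  linear_combination u i * w j * key i j

theorem conOp_pair (hA : IsOrthConn A) (x u : Sp) (v w : Fib m) :
    ∑ p, conOp A x u v p * w p + ∑ p, v p * conOp A x u w p = 0 := by
  simp only [conOp_apply, Finset.sum_mul, Finset.mul_sum]
  rw [Finset.sum_comm, Finset.sum_comm (f := fun p i => ∑ q, v p * (u i * (A x i p q * w q))),
    ← Finset.sum_add_distrib]
  refine Finset.sum_eq_zero fun i _ => ?_
  rw [Finset.sum_comm (f := fun p q => v p * (u i * (A x i p q * w q))), ← Finset.sum_add_distrib]
  refine Finset.sum_eq_zero fun p _ => ?_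
  rw [← Finset.sum_add_distrib]
  refine Finset.sum_eq_zero fun q _ => ?_
  rw [hA.2 x i p q]; ring

/-- Componentwise truncation. -/
noncomputable def clampFib (R : ℝ) (v : Fib m) : Fib m := fun p => max (-R) (min R (v p))

theorem lipschitz_clampFib (R : ℝ) : LipschitzWith 1 (clampFib (m := m) R) := by
  refine LipschitzWith.of_dist_le_mul fun v w => ?_
  rw [NNReal.coe_one, one_mul, dist_pi_le_iff dist_nonneg]
  intro p
  refine le_trans ?_ (dist_le_pi_dist v w p)
  simp only [clampFib, Real.dist_eq]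
  refine (abs_max_sub_max_le_max _ _ _ _).trans (max_le (by simp) ?_)
  exact (abs_min_sub_min_le_max _ _ _ _).trans (max_le (by simp) le_rfl)

theorem norm_clampFib_le {R : ℝ} (hR : 0 ≤ R) (v : Fib m) : ‖clampFib R v‖ ≤ min R ‖v‖ := by
  refine le_min ((pi_norm_le_iff_of_nonneg hR).2 fun p => ?_)
    ((pi_norm_le_iff_of_nonneg (norm_nonneg _)).2 fun p => le_trans ?_ (norm_le_pi_norm v p))
  · rw [Real.norm_eq_abs, abs_le]
    exact ⟨le_max_left _ _, max_le (by linarith) (min_le_left _ _)⟩
  · simp only [clampFib, Real.norm_eq_abs]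
    rcases le_total (v p) 0 with h | h
    · rw [min_eq_right (h.trans hR), abs_of_nonpos h, abs_le]
      exact ⟨by linarith [le_max_right (-R) (v p)], max_le (by linarith) (by linarith)⟩
    · rw [max_eq_right (le_trans (by linarith) (le_min hR h)), abs_of_nonneg (le_min hR h),
        abs_of_nonneg h]
      exact min_le_right _ _

theorem clampFib_of_le {R : ℝ} {v : Fib m} (h : ‖v‖ ≤ R) : clampFib R v = v := funext fun p => by
  have := abs_le.1 ((norm_le_pi_norm v p).trans h)
  simp [clampFib, min_eq_right this.2, max_eq_right this.1]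

/-- Linear equations have solutions on the unit interval. -/
theorem exists_linear_sol {L : ℝ → Fib m →L[ℝ] Fib m} (hL : Continuous L) (e : Fib m) :
    ∃ v : ℝ → Fib m, v 0 = e ∧
      ∀ t ∈ Icc (0 : ℝ) 1, HasDerivWithinAt v (L t (v t)) (Icc 0 1) t := by
  obtain ⟨M, hM⟩ := isCompact_Icc.exists_bound_of_continuousOn (hL.continuousOn (s := Icc (0 : ℝ) 1))
  have hM0 : 0 ≤ M := (norm_nonneg _).trans (hM 0 (left_mem_Icc.2 zero_le_one))
  set R := ‖e‖ * Real.exp M with hR
  have hR0 : 0 ≤ R := by positivity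
  set f : ℝ → Fib m → Fib m := fun t v => L t (clampFib R v) with hf
  have hfb : ∀ t ∈ Icc (0 : ℝ) 1, ∀ v, ‖f t v‖ ≤ M * min R ‖v‖ := fun t ht v =>
    ((L t).le_opNorm _).trans (mul_le_mul (hM t ht) (norm_clampFib_le hR0 v) (norm_nonneg _) hM0)
  have hpl : IsPicardLindelof f (tmin := 0) (tmax := 1) ⟨0, left_mem_Icc.2 zero_le_one⟩ e
      (M * R).toNNReal 0 (M * R).toNNReal M.toNNReal := by
    refine ⟨fun t ht => ?_, fun v _ => (hL.continuousOn.clm_apply continuousOn_const), ?_, ?_⟩
    · refine LipschitzWith.lipschitzOnWith ?_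
      have h1 := (L t).lipschitz.comp (lipschitz_clampFib (m := m) R)
      refine h1.weaken ?_
      rw [mul_one, ← NNReal.coe_le_coe, Real.coe_toNNReal _ hM0]
      exact hM t ht
    · intro t ht v _
      rw [Real.coe_toNNReal _ (by positivity)]
      exact (hfb t ht v).trans (mul_le_mul_of_nonneg_left (min_le_left _ _) hM0)
    · simp
  obtain ⟨v, hv0, hv⟩ := hpl.exists_eq_forall_mem_Icc_hasDerivWithinAt₀
  refine ⟨v, hv0, fun t ht => ?_⟩
  have hvc : ContinuousOn v (Icc 0 1) := fun s hs => (hv s hs).continuousWithinAt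
  have hle : ‖v t‖ ≤ R := by
    have h := norm_le_gronwallBound_of_norm_deriv_right_le (K := M) (ε := 0) (δ := ‖e‖) hvc
      (fun s hs => (hv s (Ico_subset_Icc_self hs)).mono_of_mem_nhdsWithin
        (Icc_mem_nhdsGE_of_mem hs)) (le_of_eq (by rw [hv0]))
      (fun s hs => by
        rw [add_zero]
        exact (hfb s (Ico_subset_Icc_self hs) _).trans
          (mul_le_mul_of_nonneg_left (min_le_right _ _) hM0)) t ht
    rw [gronwallBound_ε0] at h
    refine h.trans (mul_le_mul_of_nonneg_left (Real.exp_le_exp.2 ?_) (norm_nonneg _))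
    nlinarith [ht.1, ht.2]
  have := hv t ht
  simp only [hf, clampFib_of_le hle] at this
  exact this

/-- The radial projection to the outer sphere. -/
noncomputable def foot (b : ℝ) (x : Sp) : Sp := (b * invLen x) • x

/-- The segment from the foot of a point to the point. -/
noncomputable def seg (b : ℝ) (x : Sp) (s : ℝ) : Sp := foot b x + s • (x - foot b x)

/-- The equation of parallel transport along the segment of a point. -/
def IsTransport (b : ℝ) (A : Conn m) (x : Sp) (e : Fib m) (v : ℝ → Fib m) : Prop :=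
  v 0 = e ∧ ∀ t ∈ Icc (0 : ℝ) 1,
    HasDerivWithinAt v (-conOp A (seg b x t) (x - foot b x) (v t)) (Icc 0 1) t

theorem continuous_seg (x : Sp) : Continuous (seg b x) := by
  unfold seg; fun_prop

theorem exists_transport (hA : IsOrthConn A) (b : ℝ) (x : Sp) (e : Fib m) :
    ∃ v, IsTransport b A x e v :=
  exists_linear_sol (L := fun t => -conOp A (seg b x t) (x - foot b x))
    ((((contDiff_conOp hA).continuous.comp (continuous_seg x)).clm_apply continuous_const).neg) e

theorem transport_pair (hA : IsOrthConn A) {x : Sp} {e e' : Fib m} {v w : ℝ → Fib m}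
    (hv : IsTransport b A x e v) (hw : IsTransport b A x e' w) :
    ∑ p, v 1 p * w 1 p = ∑ p, e p * e' p := by
  set f : ℝ → ℝ := fun t => ∑ p, v t p * w t p with hf
  have hd : ∀ t ∈ Icc (0 : ℝ) 1, HasDerivWithinAt f 0 (Icc 0 1) t := by
    intro t ht
    have h := HasDerivWithinAt.fun_sum (u := Finset.univ) fun (p : Fin m) _ =>
      (hasDerivWithinAt_pi.1 (hv.2 t ht) p).mul (hasDerivWithinAt_pi.1 (hw.2 t ht) p)
    refine h.congr_deriv ?_
    have e := conOp_pair hA (seg b x t) (x - foot b x) (v t) (w t)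
    simp only [Pi.neg_apply, neg_mul, mul_neg, Finset.sum_add_distrib, Finset.sum_neg_distrib]
    linarith
  have h := constant_of_has_deriv_right_zero (fun t ht => (hd t ht).continuousWithinAt)
    (fun t ht => (hd t (Ico_subset_Icc_self ht)).mono_of_mem_nhdsWithin (Icc_mem_nhdsGE_of_mem ht))
    1 (right_mem_Icc.2 zero_le_one)
  simpa [hf, hv.1, hw.1] using h

theorem transport_unique (hA : IsOrthConn A) {x : Sp} {e : Fib m} {v w : ℝ → Fib m}
    (hv : IsTransport b A x e v) (hw : IsTransport b A x e w) : v 1 = w 1 := by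
  obtain ⟨M, hM⟩ := isCompact_Icc.exists_bound_of_continuousOn
    ((((contDiff_conOp hA).continuous.comp (continuous_seg (b := b) x)).clm_apply
      (continuous_const (y := x - foot b x))).continuousOn (s := Icc (0 : ℝ) 1))
  have hd : ∀ t ∈ Icc (0 : ℝ) 1, HasDerivWithinAt (fun t => v t - w t)
      (-conOp A (seg b x t) (x - foot b x) (v t - w t)) (Icc 0 1) t := fun t ht =>
    ((hv.2 t ht).sub (hw.2 t ht)).congr_deriv (by simp [map_sub]; abel)
  exact sub_eq_zero.1 (eq_zero_of_abs_deriv_le_mul_abs_self_of_eq_zero_right (K := M)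
    (fun t ht => (hd t ht).continuousWithinAt)
    (fun t ht => (hd t (Ico_subset_Icc_self ht)).mono_of_mem_nhdsWithin (Icc_mem_nhdsGE_of_mem ht))
    (by simp [hv.1, hw.1])
    (fun t ht => by
      rw [norm_neg]
      exact ((conOp A (seg b x t) (x - foot b x)).le_opNorm _).trans
        (mul_le_mul_of_nonneg_right (hM t (Ico_subset_Icc_self ht)) (norm_nonneg _)))
    1 (right_mem_Icc.2 zero_le_one))

theorem transport_outer (hb : 0 < b) (hA : IsOrthConn A) {x : Sp} (hx : sqLen x = b ^ 2)
    {e : Fib m} {v : ℝ → Fib m} (hv : IsTransport b A x e v) : v 1 = e := by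
  refine transport_unique (w := fun _ => e) hA hv ⟨rfl, fun t ht => ?_⟩
  have e1 : foot b x = x := by simp [foot, invLen_of_inner hb hx, hb.ne']
  simpa [e1] using hasDerivWithinAt_const t (Icc (0 : ℝ) 1) e

/-- A constant operator commuting with the connection commutes with transport. -/
theorem transport_comm (hA : IsOrthConn A) (T : Fib m →L[ℝ] Fib m)
    (hT : ∀ y u v, T (conOp A y u v) = conOp A y u (T v)) {x : Sp} {e : Fib m}
    {v w : ℝ → Fib m} (hv : IsTransport b A x e v) (hw : IsTransport b A x (T e) w) :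
    T (v 1) = w 1 :=
  transport_unique (v := fun t => T (v t)) hA ⟨congrArg T hv.1, fun t ht =>
    (T.hasFDerivAt.comp_hasDerivWithinAt t (hv.2 t ht)).congr_deriv (by simp [hT])⟩ hw

end Vale.Agent.P088
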