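import Vale.Agent.P088.Tangent
import Vale.Agent.P088.Transport

/-! A flat connection with vanishing tangential part on the outer sphere is pure gauge (P088). -/

open Set Metric Filter
open scoped ContDiff Topology NNReal

namespace Vale.Agent.P088

set_option maxSynthPendingDepth 3

variable {a b : ℝ} {m : ℕ} {A : Conn m} {sig : Coef}

theorem sqLen_foot (b : ℝ) {x : Sp} (hx : x ≠ 0) : sqLen (foot b x) = b ^ 2 := by
  have h := sqLen_pos hx
  rw [foot, sqLen_smul, mul_pow, invLen, inv_pow, Real.sq_sqrt h.le]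
  field_simp

theorem mem_closure_shell (ha : 0 < a) (hab : a < b) {x : Sp} (h1 : a ^ 2 ≤ sqLen x)
    (h2 : sqLen x ≤ b ^ 2) : x ∈ closure (shell a b) := by
  have hb : 0 < b := ha.trans hab
  have hS : 0 < sqLen x := (pow_pos ha 2).trans_le h1
  set r := Real.sqrt (sqLen x) with hr
  have hr0 : 0 < r := Real.sqrt_pos.2 hS
  have hr2 : r ^ 2 = sqLen x := Real.sq_sqrt hS.le
  have h1r : a ≤ r := Real.le_sqrt_of_sq_le h1
  have h2r : r ≤ b := Real.sqrt_le_iff.2 ⟨hb.le, h2⟩
  have h1m : (1 : ℝ) ∈ closure (Ioo (a / r) (b / r)) := by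
    rw [closure_Ioo (div_lt_div_of_pos_right hab hr0).ne]
    exact ⟨(div_le_one hr0).2 h1r, (one_le_div hr0).2 h2r⟩
  have hmap : MapsTo (fun t : ℝ => t • x) (Ioo (a / r) (b / r)) (shell a b) := by
    intro t ht
    have l := (div_lt_iff₀ hr0).1 ht.1
    have u := (lt_div_iff₀ hr0).1 ht.2
    show a ^ 2 < sqLen (t • x) ∧ sqLen (t • x) < b ^ 2
    rw [sqLen_smul, ← hr2, ← mul_pow]
    exact ⟨pow_lt_pow_left₀ l ha.le two_ne_zero, pow_lt_pow_left₀ u (ha.le.trans l.le) two_ne_zero⟩
  simpa using map_mem_closure (f := fun t : ℝ => t • x) (continuous_id.smul continuous_const) h1m hmap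

theorem seg_mem (ha : 0 < a) (hab : a < b) {x : Sp} (hx : x ∈ closure (shell a b)) {t : ℝ}
    (ht : t ∈ Icc (0 : ℝ) 1) : seg b x t ∈ closure (shell a b) := by
  have hb : 0 < b := ha.trans hab
  have hS := closure_shell_subset hx
  have hS0 : 0 < sqLen x := (pow_pos ha 2).trans_le hS.1
  set r := Real.sqrt (sqLen x) with hr
  have hr0 : 0 < r := Real.sqrt_pos.2 hS0
  have hr2 : r ^ 2 = sqLen x := Real.sq_sqrt hS0.le
  have hrb : r ≤ b := Real.sqrt_le_iff.2 ⟨hb.le, hS.2⟩
  have e : seg b x t = (b / r + t * (1 - b / r)) • x := by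
    ext k; simp [seg, foot, invLen, ← hr]; ring
  have hc : (b / r + t * (1 - b / r)) * r = b - t * (b - r) := by field_simp; ring
  refine mem_closure_shell ha hab ?_ ?_ <;> rw [e, sqLen_smul, ← hr2, ← mul_pow, hc]
  · have h1 : r ≤ b - t * (b - r) := by nlinarith [ht.2]
    calc a ^ 2 ≤ r ^ 2 := by rw [hr2]; exact hS.1
      _ ≤ _ := pow_le_pow_left₀ hr0.le h1 2
  · refine pow_le_pow_left₀ ?_ ?_ 2
    · nlinarith [ht.1, ht.2]
    · nlinarith [ht.1]

theorem conOp_tangent (hb : 0 < b) {P : Sp}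
    (hrot : ∀ l n p q, rot A l n p q P = 0) (hP : sqLen P = b ^ 2) (u : Sp) :
    conOp A P u = ((∑ k, P k * u k) / b ^ 2) • conOp A P P := by
  refine ContinuousLinearMap.ext fun v => funext fun p => ?_
  simp only [smul_apply, Pi.smul_apply, smul_eq_mul, conOp_apply]
  rw [div_mul_eq_mul_div, eq_div_iff (by positivity), ← hP, Finset.sum_comm,
    Finset.sum_comm (f := fun i q => P i * (A P i p q * v q)), Finset.sum_mul, Finset.mul_sum]
  refine Finset.sum_congr rfl fun q _ => ?_
  have r01 := hrot 0 1 p q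
  have r02 := hrot 0 2 p q
  have r12 := hrot 1 2 p q
  simp only [rot] at r01 r02 r12
  simp only [sqLen, Fin.sum_univ_three]
  linear_combination (P 0 * u 1 - P 1 * u 0) * v q * r01
    + (P 0 * u 2 - P 2 * u 0) * v q * r02 + (P 1 * u 2 - P 2 * u 1) * v q * r12

theorem exists_taylor (hA : IsOrthConn A) (R : ℝ) :
    ∃ K, 0 ≤ K ∧ ∀ z w, ‖z‖ ≤ R → ‖w‖ ≤ R →
      ‖conOp A z‖ ≤ K ∧ ‖fderiv ℝ (conOp A) z‖ ≤ K ∧
        ‖conOp A w - conOp A z - fderiv ℝ (conOp A) z (w - z)‖ ≤ K * ‖w - z‖ ^ 2 := by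
  have hc := contDiff_conOp hA
  have hG : ContDiff ℝ 1 (fderiv ℝ (conOp A)) := hc.fderiv_right (WithTop.coe_le_coe.2 le_top)
  obtain ⟨L, hL⟩ := (ContDiffOn.locallyLipschitzOn (convex_closedBall (0 : Sp) R)
    hG.contDiffOn).exists_lipschitzOnWith_of_compact (isCompact_closedBall _ _)
  obtain ⟨K1, hK1⟩ := (isCompact_closedBall (0 : Sp) R).exists_bound_of_continuousOn
    hc.continuous.continuousOn
  obtain ⟨K2, hK2⟩ := (isCompact_closedBall (0 : Sp) R).exists_bound_of_continuousOn
    hG.continuous.continuousOn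
  refine ⟨max 0 (max K1 (max K2 L)), le_max_left _ _, fun z w hz hw => ?_⟩
  set K := max 0 (max K1 (max K2 (L : ℝ))) with hK
  have hz' : z ∈ closedBall (0 : Sp) R := mem_closedBall_zero_iff.2 hz
  have hw' : w ∈ closedBall (0 : Sp) R := mem_closedBall_zero_iff.2 hw
  have k1 : K1 ≤ K := le_max_of_le_right (le_max_left _ _)
  have k2 : K2 ≤ K := le_max_of_le_right (le_max_of_le_right (le_max_left _ _))
  have k3 : (L : ℝ) ≤ K := le_max_of_le_right (le_max_of_le_right (le_max_right _ _))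
  refine ⟨(hK1 z hz').trans k1, (hK2 z hz').trans k2, ?_⟩
  have hseg : segment ℝ z w ⊆ closedBall (0 : Sp) R := (convex_closedBall _ _).segment_subset hz' hw'
  have h := (convex_segment z w).norm_image_sub_le_of_norm_fderiv_le'
    (f := conOp A) (φ := fderiv ℝ (conOp A) z) (C := (L : ℝ) * ‖w - z‖)
    (fun y _ => hc.differentiable (by simp) y) (fun y hy => ?_)
    (left_mem_segment ℝ z w) (right_mem_segment ℝ z w)
  · calc _ ≤ (L : ℝ) * ‖w - z‖ * ‖w - z‖ := h
      _ ≤ K * ‖w - z‖ ^ 2 := by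
        rw [mul_assoc, ← sq]; exact mul_le_mul_of_nonneg_right k3 (sq_nonneg _)
  · refine (hL.norm_sub_le (hseg hy) hz').trans (mul_le_mul_of_nonneg_left ?_ L.coe_nonneg)
    exact norm_sub_le_of_mem_segment hy

/-- The transport to a point depends on it as a parallel section does. -/
theorem hasFDerivAt_transport (ha : 0 < a) (hab : a < b) (hA : IsOrthConn A)
    (hflat : ∀ z ∈ closure (shell a b), ∀ i j p q, curv A z i j p q = 0)
    (hrot : ∀ l n p q z, sqLen z = b ^ 2 → rot A l n p q z = 0)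
    {e : Fib m} {sol : Sp → ℝ → Fib m} (hsol : ∀ y, IsTransport b A y e (sol y))
    {x : Sp} (hx : x ∈ closure (shell a b)) :
    HasFDerivAt (fun y => sol y 1) (-(conOp A x).flip (sol x 1)) x := by
  have hb : 0 < b := ha.trans hab
  have hx0 : x ≠ 0 := closure_shell_punctured ha hx
  set P0 := foot b x with hP0
  set p' := x - P0 with hp'
  obtain ⟨C, hC0, hC⟩ : ∃ C, 0 ≤ C ∧ ∀ᶠ y in 𝓝 x, ‖foot b y - P0‖ ≤ C * ‖y - x‖ := by
    have hd : DifferentiableAt ℝ (foot b) x :=
      (((contDiffOn_const.mul contDiffOn_invLen).smul contDiffOn_id).differentiableOn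
        (by simp)).differentiableAt (isOpen_punctured.mem_nhds hx0)
    obtain ⟨C, hC0, hC⟩ := hd.hasFDerivAt.isBigO_sub.exists_nonneg
    exact ⟨C, hC0, hC.bound⟩
  set c := 2 * C + 1 with hc
  obtain ⟨K, hK0, hK⟩ := exists_taylor hA (‖P0‖ + ‖p'‖ + c)
  obtain ⟨V, hV⟩ := isCompact_Icc.exists_bound_of_continuousOn
    (fun t ht => ((hsol x).2 t ht).continuousWithinAt : ContinuousOn (sol x) (Icc 0 1))
  have hV0 : 0 ≤ V := (norm_nonneg _).trans (hV 0 (left_mem_Icc.2 zero_le_one))
  set Kh := (K * (‖p'‖ + c) + 1).toNNReal with hKh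
  have hKhc : (Kh : ℝ) = K * (‖p'‖ + c) + 1 := Real.coe_toNNReal _ (by positivity)
  set C2 := (K * c ^ 2 * (1 + ‖p'‖ + c) * (1 + K * c) + K ^ 2 * c ^ 2 + K ^ 2 * c ^ 2 * ‖p'‖) * V
    with hC2
  set C3 := 3 / 2 * C ^ 2 / b ^ 2 * ‖conOp A P0 P0 e‖ with hC3
  set CF := C3 * Real.exp Kh + C2 / Kh * (Real.exp Kh - 1) with hCF
  have hbig : (fun y => sol y 1 - sol x 1 + conOp A x (y - x) (sol x 1))
      =O[𝓝 x] fun y => ‖y - x‖ ^ 2 := by
    refine Asymptotics.IsBigO.of_bound CF ?_
    filter_upwards [hC, closedBall_mem_nhds x one_pos,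
      isOpen_punctured.mem_nhds hx0] with y hy hy1 hy0
    set ε := ‖y - x‖ with hε
    have hε1 : ε ≤ 1 := mem_closedBall_iff_norm.1 hy1
    have hε0 : 0 ≤ ε := norm_nonneg _
    set Q := foot b y with hQ
    set D0 := Q - P0 with hD0
    set d' := (y - Q) - p' with hd'
    set δ : ℝ → Sp := fun t => D0 + t • d' with hδ
    have hd'n : ‖d'‖ ≤ c * ε := by
      rw [hd', hp', show y - Q - (x - P0) = (y - x) - D0 by rw [hD0]; abel, hc]
      refine (norm_sub_le _ _).trans ?_
      nlinarith [mul_nonneg hC0 hε0]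
    have hδn : ∀ t ∈ Icc (0 : ℝ) 1, ‖δ t‖ ≤ c * ε := by
      intro t ht
      have h1 : δ t = (1 - t) • D0 + t • (y - x) := by
        simp only [hδ, hd', hp', hD0, sub_smul, one_smul, smul_sub]; abel
      rw [h1]
      refine (norm_add_le _ _).trans ?_
      rw [norm_smul, norm_smul, Real.norm_eq_abs, Real.norm_eq_abs, abs_of_nonneg ht.1,
        abs_of_nonneg (sub_nonneg.2 ht.2)]
      nlinarith [mul_le_mul_of_nonneg_left hy (sub_nonneg.2 ht.2), mul_nonneg hC0 hε0,
        mul_nonneg (mul_nonneg hC0 hε0) ht.1, mul_nonneg hε0 (sub_nonneg.2 ht.2)]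
    have hcε : c * ε ≤ c := mul_le_of_le_one_right (by positivity) hε1
    have hyQ : y - Q = p' + d' := by rw [hd']; abel
    have hsy : ∀ t, seg b y t = seg b x t + δ t := fun t => by
      simp only [seg, hδ, hd', hp', hD0, ← hQ, ← hP0, smul_sub]; abel
    have hball : ∀ t ∈ Icc (0 : ℝ) 1,
        ‖seg b x t‖ ≤ ‖P0‖ + ‖p'‖ + c ∧ ‖seg b y t‖ ≤ ‖P0‖ + ‖p'‖ + c := by
      intro t ht
      have h1 : ‖seg b x t‖ ≤ ‖P0‖ + ‖p'‖ := by
        rw [seg, ← hP0, ← hp']
        refine (norm_add_le _ _).trans (add_le_add le_rfl ?_)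
        rw [norm_smul, Real.norm_eq_abs, abs_of_nonneg ht.1]
        exact mul_le_of_le_one_left (norm_nonneg _) ht.2
      refine ⟨h1.trans (le_add_of_nonneg_right (by positivity)), ?_⟩
      rw [hsy]
      exact (norm_add_le _ _).trans (add_le_add h1 ((hδn t ht).trans hcε))
    set W : ℝ → Fib m := fun t => sol x t - conOp A (seg b x t) (δ t) (sol x t) with hW
    set W' : ℝ → Fib m := fun t =>
      -conOp A (seg b x t) p' (sol x t)
        - ((fderiv ℝ (conOp A) (seg b x t) p' (δ t) + conOp A (seg b x t) d') (sol x t)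
          + conOp A (seg b x t) (δ t) (-conOp A (seg b x t) p' (sol x t))) with hW'
    have hWd : ∀ t ∈ Icc (0 : ℝ) 1, HasDerivWithinAt W (W' t) (Icc 0 1) t := by
      intro t ht
      have hv : HasDerivWithinAt (sol x) (-conOp A (seg b x t) p' (sol x t)) (Icc 0 1) t :=
        (hsol x).2 t ht
      have hs : HasDerivWithinAt (seg b x) p' (Icc 0 1) t := by
        have := ((hasDerivWithinAt_id t (Icc (0 : ℝ) 1)).smul_const p').const_add P0
        rw [one_smul] at this
        exact this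
      have hdl : HasDerivWithinAt δ d' (Icc 0 1) t := by
        have := ((hasDerivWithinAt_id t (Icc (0 : ℝ) 1)).smul_const d').const_add D0
        rw [one_smul] at this
        exact this
      have hB : HasDerivWithinAt (fun s => conOp A (seg b x s))
          (fderiv ℝ (conOp A) (seg b x t) p') (Icc 0 1) t :=
        (((contDiff_conOp hA).differentiable (by simp) _).hasFDerivAt).comp_hasDerivWithinAt t hs
      exact hv.sub ((hB.clm_apply hdl).clm_apply hv)
    set fY : ℝ → Fib m → Fib m := fun t w => -conOp A (seg b y t) (y - Q) w with hfY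
    have hres : ∀ t ∈ Ico (0 : ℝ) 1, dist (W' t) (fY t (W t)) ≤ C2 * ε ^ 2 := by
      intro t ht'
      have ht : t ∈ Icc (0 : ℝ) 1 := Ico_subset_Icc_self ht'
      have hfl := conOp_flat hA (hflat _ (seg_mem ha hab hx ht)) (δ t) p' (sol x t)
      obtain ⟨hB, hD, hR⟩ := hK (seg b x t) (seg b y t) (hball t ht).1 (hball t ht).2
      have hδt := hδn t ht
      have hvt := hV t ht
      rw [hsy, add_sub_cancel_left] at hR
      rw [dist_eq_norm]
      simp only [hfY, sub_neg_eq_add, hyQ, hsy]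
      set z := seg b x t with hz
      set d := δ t with hd
      set v := sol x t with hv
      set B := conOp A z with hBdef
      set D := fderiv ℝ (conOp A) z with hDdef
      set R := conOp A (z + d) - B - D d with hRdef
      have e1 : conOp A (z + d) = B + D d + R := by rw [hRdef]; abel
      have hWt : W t = v - B d v := rfl
      have e2 : W' t + conOp A (z + d) (p' + d') (W t)
          = ((D d d' + R (p' + d')) (W t)) - B d' (B d v) - D d p' (B d v) := by
        rw [e1, hWt]
        simp only [hW', ← hz, ← hd, ← hv, ← hBdef, ← hDdef, map_add, map_sub, map_neg, add_apply,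
          sub_apply, neg_apply]
        linear_combination (norm := abel) hfl
      rw [e2]
      have nBd : ‖B d v‖ ≤ K * (c * ε) * V :=
        (B.le_opNorm₂ d v).trans (mul_le_mul (mul_le_mul hB hδt (norm_nonneg _) hK0) hvt
          (norm_nonneg _) (by positivity))
      have nW : ‖W t‖ ≤ V * (1 + K * c) := by
        rw [hWt]
        calc ‖v - B d v‖ ≤ V + K * (c * ε) * V := (norm_sub_le _ _).trans (add_le_add hvt nBd)
          _ ≤ V + K * c * V := by gcongr
          _ = _ := by ring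
      have nDd : ‖D d‖ ≤ K * (c * ε) :=
        (D.le_opNorm d).trans (mul_le_mul hD hδt (norm_nonneg _) hK0)
      have nR : ‖R‖ ≤ K * (c * ε) ^ 2 :=
        hR.trans (mul_le_mul_of_nonneg_left (pow_le_pow_left₀ (norm_nonneg _) hδt 2) hK0)
      have n1 : ‖(D d d' + R (p' + d')) (W t)‖
          ≤ (K * (c * ε) * (c * ε) + K * (c * ε) ^ 2 * (‖p'‖ + c)) * (V * (1 + K * c)) := by
        refine ((D d d' + R (p' + d')).le_opNorm _).trans
          (mul_le_mul ((norm_add_le _ _).trans (add_le_add ?_ ?_)) nW (norm_nonneg _)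
            (by positivity))
        · exact ((D d).le_opNorm d').trans (mul_le_mul nDd hd'n (norm_nonneg _) (by positivity))
        · exact (R.le_opNorm _).trans (mul_le_mul nR
            ((norm_add_le _ _).trans (add_le_add le_rfl (hd'n.trans hcε))) (norm_nonneg _)
            (by positivity))
      have n2 : ‖B d' (B d v)‖ ≤ K * (c * ε) * (K * (c * ε) * V) :=
        (B.le_opNorm₂ _ _).trans (mul_le_mul (mul_le_mul hB hd'n (norm_nonneg _) hK0) nBd
          (norm_nonneg _) (by positivity))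
      have n3 : ‖D d p' (B d v)‖ ≤ K * (c * ε) * ‖p'‖ * (K * (c * ε) * V) :=
        ((D d).le_opNorm₂ _ _).trans (mul_le_mul (mul_le_mul_of_nonneg_right nDd (norm_nonneg _))
          nBd (norm_nonneg _) (by positivity))
      calc _ ≤ ‖(D d d' + R (p' + d')) (W t)‖ + ‖B d' (B d v)‖ + ‖D d p' (B d v)‖ :=
            (norm_sub_le _ _).trans (add_le_add (norm_sub_le _ _) le_rfl)
        _ ≤ _ := add_le_add (add_le_add n1 n2) n3
        _ = C2 * ε ^ 2 := by rw [hC2]; ring
    have hW0 : dist (W 0) (sol y 0) ≤ C3 * ε ^ 2 := by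
      have hPs : sqLen P0 = b ^ 2 := sqLen_foot b hx0
      have hQs : sqLen Q = b ^ 2 := sqLen_foot b hy0
      have e0 : W 0 - sol y 0 = -conOp A P0 D0 e := by
        simp [hW, hδ, seg, ← hP0, (hsol x).1, (hsol y).1]
      rw [dist_eq_norm, e0, norm_neg, conOp_tangent hb (fun l n p q => hrot l n p q P0 hPs) hPs,
        smul_apply, norm_smul, Real.norm_eq_abs, abs_div, abs_of_pos (pow_pos hb 2), hC3]
      have hs : ∑ k, P0 k * D0 k = -(∑ k, D0 k ^ 2) / 2 := by
        simp only [sqLen, Fin.sum_univ_three] at hPs hQs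
        simp only [hD0, Pi.sub_apply, Fin.sum_univ_three]
        linear_combination (hQs - hPs) / 2
      have hbd : |∑ k, P0 k * D0 k| ≤ 3 / 2 * C ^ 2 * ε ^ 2 := by
        rw [hs, neg_div, abs_neg, abs_of_nonneg (by positivity)]
        have h1 : ∀ k, D0 k ^ 2 ≤ (C * ε) ^ 2 := fun k => by
          rw [← sq_abs, ← Real.norm_eq_abs]
          exact pow_le_pow_left₀ (norm_nonneg _) ((norm_le_pi_norm D0 k).trans hy) 2
        rw [Fin.sum_univ_three]
        nlinarith [h1 0, h1 1, h1 2]
      calc |∑ k, P0 k * D0 k| / b ^ 2 * ‖conOp A P0 P0 e‖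
            ≤ 3 / 2 * C ^ 2 * ε ^ 2 / b ^ 2 * ‖conOp A P0 P0 e‖ := by gcongr
        _ = _ := by ring
    have hlip : ∀ t ∈ Ico (0 : ℝ) 1, LipschitzOnWith Kh (fY t) univ := by
      intro t ht
      have hn : ‖-conOp A (seg b y t) (y - Q)‖ ≤ (Kh : ℝ) := by
        rw [norm_neg, hKhc]
        have hB := (hK (seg b y t) (seg b y t) (hball t (Ico_subset_Icc_self ht)).2
          (hball t (Ico_subset_Icc_self ht)).2).1
        refine (((conOp A (seg b y t)).le_opNorm _).trans (mul_le_mul hB ?_ (norm_nonneg _) hK0)).trans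
          (le_add_of_nonneg_right zero_le_one)
        rw [hyQ]
        exact (norm_add_le _ _).trans (add_le_add le_rfl (hd'n.trans hcε))
      exact (((-conOp A (seg b y t) (y - Q)).lipschitz).weaken
        (NNReal.coe_le_coe.1 (by simpa using hn))).lipschitzOnWith
    have H := dist_le_of_approx_trajectories_ODE_of_mem (v := fY) (s := fun _ => univ) hlip
      (fun t ht => (hWd t ht).continuousWithinAt)
      (fun t ht => (hWd t (Ico_subset_Icc_self ht)).mono_of_mem_nhdsWithin
        (Icc_mem_nhdsGE_of_mem ht))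
      hres (fun _ _ => trivial)
      (fun t ht => ((hsol y).2 t ht).continuousWithinAt)
      (fun t ht => ((hsol y).2 t (Ico_subset_Icc_self ht)).mono_of_mem_nhdsWithin
        (Icc_mem_nhdsGE_of_mem ht))
      (fun t _ => le_of_eq (dist_self _)) (fun _ _ => trivial) hW0 1 (right_mem_Icc.2 zero_le_one)
    have eend : sol y 1 - sol x 1 + conOp A x (y - x) (sol x 1) = sol y 1 - W 1 := by
      have h1 : seg b x 1 = x := by simp [seg]
      have h2 : δ 1 = y - x := by simp only [hδ, hd', hp', hD0, one_smul]; abel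
      simp only [hW, h1, h2]; abel
    rw [eend, ← norm_neg, neg_sub, ← dist_eq_norm]
    refine H.trans (le_of_eq ?_)
    have hne : (Kh : ℝ) ≠ 0 := by rw [hKhc]; positivity
    rw [gronwallBound_of_K_ne_0 hne, Real.norm_of_nonneg (sq_nonneg _), hCF]
    ring_nf
  have hzero := hbig.hasFDerivAt (𝕜 := ℝ) one_lt_two
  set T := (conOp A x).flip (sol x 1) with hT
  have h2 := hzero.fun_add (((hasFDerivAt_id (𝕜 := ℝ) x).sub_const x |> fun h =>
    T.hasFDerivAt.comp x h).fun_neg.const_add (sol x 1))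
  refine (h2.congr_fderiv ?_).congr_of_eventuallyEq (Eventually.of_forall fun y => ?_)
  · ext u; simp
  · simp [hT, ContinuousLinearMap.flip_apply]
    abel

theorem coord_decomp (f : Sp →L[ℝ] ℝ) (u : Sp) : f u = ∑ i, u i * f (Pi.single i 1) := by
  conv_lhs => rw [show u = ∑ i, u i • (Pi.single i (1 : ℝ) : Sp) from by
    ext k; simp [Finset.sum_apply, Pi.single_apply]]
  simp

/-- Sections with `dU = -AU` on a set are smooth there. -/
theorem contDiffOn_parallel (hA : IsOrthConn A) {s : Set Sp} {U : Sp → Fin m → Fin m → ℝ}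
    (hd : ∀ x ∈ s, ∀ p q, DifferentiableAt ℝ (fun y => U y p q) x ∧
      ∀ i, dd i (fun y => U y p q) x = -∑ r, A x i p r * U x r q) (p q : Fin m) :
    ContDiffOn ℝ ∞ (fun y => U y p q) s := by
  refine contDiffOn_infty.2 fun n => ?_
  induction n generalizing p q with
  | zero =>
    rw [CharP.cast_eq_zero, contDiffOn_zero]
    exact fun y hy => (hd y hy p q).1.continuousAt.continuousWithinAt
  | succ n ih =>
    rw [Nat.cast_succ, contDiffOn_succ_iff_hasFDerivWithinAt (by simp)]
    intro x hx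
    refine ⟨s, by rw [insert_eq_of_mem hx]; exact self_mem_nhdsWithin,
      fun h => absurd h (by simp), fun y => ∑ i, (-∑ r, A y i p r * U y r q) •
        (ContinuousLinearMap.proj i : Sp →L[ℝ] ℝ), fun y hy => ?_, ?_⟩
    · refine ((hd y hy p q).1.hasFDerivAt.congr_fderiv ?_).hasFDerivWithinAt
      refine ContinuousLinearMap.ext fun u => ?_
      rw [coord_decomp]
      simp only [sum_apply, smul_apply, ContinuousLinearMap.proj_apply, smul_eq_mul]
      refine Finset.sum_congr rfl fun i _ => ?_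
      rw [← (hd y hy p q).2 i, mul_comm]; rfl
    · refine ContDiffOn.sum fun i _ => ?_
      have h : ContDiffOn ℝ n (fun y => -∑ r, A y i p r * U y r q) s := (ContDiffOn.sum fun r _ =>
        (((hA.1 i p r).of_le (WithTop.coe_le_coe.2 le_top)).contDiffOn).mul (ih r q)).neg
      exact h.smul contDiffOn_const

end Vale.Agent.P088
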