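import Vale.Agent.P088.Main

/-! Thin layers below the outer sphere (P088). -/

open MeasureTheory Set
open scoped ContDiff Pointwise

namespace Vale.Agent.P088

variable {a b : ℝ}

theorem sqLen_smul (t : ℝ) (x : Sp) : sqLen (t • x) = t ^ 2 * sqLen x := by
  simp [sqLen, mul_pow, Finset.mul_sum]

theorem invLen_smul {t : ℝ} (ht : 0 < t) (x : Sp) : invLen (t • x) = t⁻¹ * invLen x := by
  rw [invLen, invLen, sqLen_smul, Real.sqrt_mul (sq_nonneg t), Real.sqrt_sq ht.le, mul_inv]

theorem dd_sqLen (x : Sp) (i : Fin 3) : dd i sqLen x = 2 * x i := by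
  have d : ∀ k : Fin 3, DifferentiableAt ℝ (fun y : Sp => y k) x := fun k =>
    (hasFDerivAt_apply k x).differentiableAt
  have e : dd i sqLen x = dd i (fun y : Sp => ∑ k, y k ^ 2) x := rfl
  rw [e, dd_sum (fun k _ => (d k).fun_pow 2)]
  simp only [sq, dd_mul (d _) (d _), dd_coord]
  simp [Finset.sum_add_distrib]
  ring

theorem dd_comp {g : ℝ → ℝ} {f : Sp → ℝ} {x : Sp} (hg : DifferentiableAt ℝ g (f x))
    (hf : DifferentiableAt ℝ f x) (i : Fin 3) :
    dd i (fun y => g (f y)) x = deriv g (f x) * dd i f x := by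
  unfold dd
  rw [show (fun y => g (f y)) = g ∘ f from rfl,
    (hg.hasDerivAt.comp_hasFDerivAt x hf.hasFDerivAt).fderiv]
  simp

/-- Smooth cutoff supported in a layer of relative width `2η`, equal to one on half of it. -/
noncomputable def cut (b η s : ℝ) : ℝ :=
  Real.smoothTransition ((s - b ^ 2 * (1 - 2 * η)) / (b ^ 2 * η))

/-- The cutoff times the depth in the layer. -/
noncomputable def depth (b η s : ℝ) : ℝ := (s - b ^ 2 * (1 - 2 * η)) * cut b η s

theorem contDiff_cut (b η : ℝ) : ContDiff ℝ ∞ (cut b η) :=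
  Real.smoothTransition.contDiff.comp ((contDiff_id.sub contDiff_const).div_const _)

theorem contDiff_depth (b η : ℝ) : ContDiff ℝ ∞ (depth b η) :=
  (contDiff_id.sub contDiff_const).mul (contDiff_cut b η)

theorem cut_nonneg (b η s : ℝ) : 0 ≤ cut b η s := Real.smoothTransition.nonneg _

theorem cut_le_one (b η s : ℝ) : cut b η s ≤ 1 := Real.smoothTransition.le_one _

theorem cut_eq_zero (hb : 0 < b) {η s : ℝ} (hη : 0 < η) (hs : s ≤ b ^ 2 * (1 - 2 * η)) :
    cut b η s = 0 :=
  Real.smoothTransition.zero_of_nonpos (div_nonpos_of_nonpos_of_nonneg (by linarith) (by positivity))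

theorem cut_eq_one (hb : 0 < b) {η s : ℝ} (hη : 0 < η) (hs : b ^ 2 * (1 - η) ≤ s) :
    cut b η s = 1 :=
  Real.smoothTransition.one_of_one_le ((one_le_div (by positivity)).2 (by linarith))

theorem cut_mono (hb : 0 < b) {η : ℝ} (hη : 0 < η) : Monotone (cut b η) := fun s t hst =>
  Real.smoothTransition.monotone (div_le_div_of_nonneg_right (by linarith) (by positivity))

theorem depth_nonneg (hb : 0 < b) {η : ℝ} (hη : 0 < η) (s : ℝ) : 0 ≤ depth b η s := by
  rcases le_total s (b ^ 2 * (1 - 2 * η)) with h | h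
  · simp [depth, cut_eq_zero hb hη h]
  · exact mul_nonneg (sub_nonneg.2 h) (cut_nonneg _ _ _)

theorem depth_le {η : ℝ} {s : ℝ} (hs : s ≤ b ^ 2) :
    depth b η s ≤ 2 * η * b ^ 2 * cut b η s :=
  mul_le_mul_of_nonneg_right (by linarith) (cut_nonneg _ _ _)

theorem cut_le_deriv_depth (hb : 0 < b) {η : ℝ} (hη : 0 < η) (s : ℝ) :
    cut b η s ≤ deriv (depth b η) s := by
  have hd : deriv (depth b η) s
      = cut b η s + (s - b ^ 2 * (1 - 2 * η)) * deriv (cut b η) s := by
    have H := ((hasDerivAt_id s).sub_const (b ^ 2 * (1 - 2 * η))).mul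
      ((contDiff_cut b η).differentiable (by simp) s).hasDerivAt
    have e : depth b η = (fun x => x - b ^ 2 * (1 - 2 * η)) * cut b η := rfl
    rw [e]
    simpa using H.deriv
  rw [hd]
  rcases le_total (b ^ 2 * (1 - 2 * η)) s with h | h
  · exact le_add_of_nonneg_right (mul_nonneg (sub_nonneg.2 h) (cut_mono hb hη).deriv_nonneg)
  · rcases h.eq_or_lt with h' | h'
    · simp [h']
    · have : deriv (cut b η) s = 0 := by
        rw [Filter.EventuallyEq.deriv_eq (f := fun _ => (0 : ℝ))
          (Filter.eventually_of_mem (Iio_mem_nhds h') fun t ht => cut_eq_zero hb hη (le_of_lt ht))]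
        simp
      simp [this]

theorem div_depth (b η : ℝ) (x : Sp) :
    ∑ i, dd i (fun y => depth b η (sqLen y) * y i) x
      = 2 * sqLen x * deriv (depth b η) (sqLen x) + 3 * depth b η (sqLen x) := by
  have hd : DifferentiableAt ℝ (fun y => depth b η (sqLen y)) x :=
    ((contDiff_depth b η).comp contDiff_sqLen).differentiable (by simp) x
  have e : ∀ i, dd i (fun y => depth b η (sqLen y) * y i) x
      = deriv (depth b η) (sqLen x) * (2 * x i) * x i + depth b η (sqLen x) := by
    intro i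
    rw [dd_mul hd (hasFDerivAt_apply i x).differentiableAt,
      dd_comp ((contDiff_depth b η).differentiable (by simp) _)
        (contDiff_sqLen.differentiable (by simp) x), dd_sqLen, dd_coord]
    simp
  rw [Finset.sum_congr rfl fun i _ => e i]
  simp only [sqLen, Fin.sum_univ_three]
  ring

/-- The part of a cone in the ball of radius `r`. -/
def coneBall (C : Set Sp) (r : ℝ) : Set Sp := {x | x ∈ C ∧ sqLen x < r ^ 2}

theorem volume_coneBall {C : Set Sp} (hC : ∀ x, ∀ t : ℝ, 0 < t → x ∈ C → t • x ∈ C) {k r : ℝ}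
    (hk : 0 < k) :
    volume.real (coneBall C (k * r)) = k ^ 3 * volume.real (coneBall C r) := by
  have e : coneBall C (k * r) = k • coneBall C r := by
    ext x
    rw [mem_smul_set_iff_inv_smul_mem₀ hk.ne']
    simp only [coneBall, mem_setOf_eq, sqLen_smul, mul_pow, inv_pow]
    constructor
    · rintro ⟨h1, h2⟩
      exact ⟨hC x k⁻¹ (inv_pos.2 hk) h1, by rw [inv_mul_lt_iff₀ (pow_pos hk 2)]; exact h2⟩
    · rintro ⟨h1, h2⟩
      refine ⟨?_, by rwa [inv_mul_lt_iff₀ (pow_pos hk 2)] at h2⟩
      simpa [smul_smul, mul_inv_cancel₀ hk.ne'] using hC _ k hk h1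
  rw [e, Measure.real, Measure.real, Measure.addHaar_smul, ENNReal.toReal_mul,
    ENNReal.toReal_ofReal (abs_nonneg _), abs_of_pos (pow_pos hk _)]
  simp

theorem isBounded_coneBall (C : Set Sp) (r : ℝ) : Bornology.IsBounded (coneBall C r) := by
  refine (Metric.isBounded_closedBall (x := (0 : Sp)) (r := |r|)).subset fun x hx => ?_
  rw [mem_closedBall_zero_iff, pi_norm_le_iff_of_nonneg (abs_nonneg r)]
  intro k
  have h1 : x k ^ 2 ≤ sqLen x :=
    Finset.single_le_sum (f := fun i => x i ^ 2) (fun i _ => sq_nonneg _) (Finset.mem_univ k)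
  exact sq_le_sq.1 (h1.trans hx.2.le)

/-- The volume of the part of a cone between two spheres. -/
theorem volume_coneShell {C : Set Sp} (hCm : MeasurableSet C)
    (hC : ∀ x, ∀ t : ℝ, 0 < t → x ∈ C → t • x ∈ C) {k : ℝ} (hk : 0 < k) (hk1 : k ≤ 1) :
    volume.real (coneBall C b \ coneBall C (k * b))
      = (1 - k ^ 3) * volume.real (coneBall C b) := by
  have hsub : coneBall C (k * b) ⊆ coneBall C b := fun x hx => ⟨hx.1, hx.2.trans_le (by
    rw [mul_pow]; exact mul_le_of_le_one_left (sq_nonneg b) (pow_le_one₀ hk.le hk1))⟩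
  rw [measureReal_diff hsub (hCm.inter (measurableSet_lt contDiff_sqLen.continuous.measurable
    measurable_const)) (isBounded_coneBall C b).measure_lt_top.ne, volume_coneBall hC hk]
  ring

end Vale.Agent.P088
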