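import Vale.Agent.P088.Flat

/-! Outer-sphere data detect the Euclidean metric with a flat connection (P088). -/

open MeasureTheory Set
open scoped ContDiff

namespace Vale.Agent.P088

variable {a b : ℝ} {m : ℕ} {A : Conn m} {sig : Coef}

theorem exists_frame_seq (ha : 0 < a) (hA : IsOrthConn A) (hs : AboveEuclid a b sig)
    (hS : SameOuterData a b euclid (0 : Conn m) sig A) (e : Fin m → ℝ) {θ : ℝ} (hθ : 0 < θ) :
    ∃ z, Approx a b A e θ z := by
  obtain ⟨z, hz, -⟩ := exists_min_seq ha hA hs hS (h := rad a) contDiffOn_rad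
    (fun x hx => harmonic_rad (shell_ne_zero ha hx)) (fun x hx => rad_inner ha hx)
    (fun x _ => le_rfl) e hθ
  exact ⟨z, hz⟩

theorem curv_eq_zero (ha : 0 < a) (hA : IsOrthConn A) (hs : AboveEuclid a b sig)
    (hS : SameOuterData a b euclid (0 : Conn m) sig A) (i j : Fin 3) :
    ∀ x ∈ shell a b, ∀ p q, curv A x i j p q = 0 := by
  set Ω := shell a b with hΩ
  have hb : Bornology.IsBounded Ω := isBounded_shell
  have ho : IsOpen Ω := isOpen_shell
  have cP : Continuous fun x => ∑ p, ∑ q, curv A x i j p q ^ 2 :=
    continuous_finsetSum _ fun p _ => continuous_finsetSum _ fun q _ =>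
      (contDiff_curv hA i j p q).continuous.pow 2
  have hz : ∀ x ∈ Ω, ∑ p, ∑ q, curv A x i j p q ^ 2 = 0 := by
    refine eq_zero_of_tests cP.continuousOn fun ψ hψ => ?_
    let bas : Fin m → Fin m → ℝ := fun k q => if q = k then 1 else 0
    choose C1 hC10 hC1 using fun k => exists_curv_bound (b := b) ha hA (bas k) i j hψ
    choose C2 hC20 hC2 using fun k l => exists_gram_bound (b := b) ha hA (bas k) (bas l)
    obtain ⟨c, hc, hcK⟩ := weight_lower ha hψ.2.1.isCompact hψ.2.2
    obtain ⟨M1, hM10, hM1⟩ := exists_max (a := a) (b := b) hψ.1.continuous.continuousOn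
    obtain ⟨M2, hM20, hM2⟩ := exists_max (a := a) (b := b)
      (f := fun x => ∑ p, ∑ q, |curv A x i j p q|)
      (continuous_finsetSum _ fun p _ => continuous_finsetSum _ fun q _ =>
        (contDiff_curv hA i j p q).continuous.abs).continuousOn
    set K := M1 * ((m : ℝ) ^ 3 * M2 ^ 2) / c with hK
    refine eq_zero_of_le_mul (C := (∑ k, C1 k) + K * ∑ k, ∑ l, C2 k l)
      (add_nonneg (Finset.sum_nonneg fun k _ => hC10 k)
        (mul_nonneg (by positivity) (Finset.sum_nonneg fun k _ =>
          Finset.sum_nonneg fun l _ => hC20 k l))) fun θ hθ hθ1 => ?_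
    choose z hzA using fun k => exists_frame_seq ha hA hs hS (bas k) hθ
    set T : Fin m → Sp → ℝ := fun k x => ψ x * ∑ p, (∑ q, curv A x i j p q * z k x q) ^ 2 with hT
    have cT : ∀ k, Continuous (T k) := fun k => hψ.1.continuous.mul
      (continuous_finsetSum _ fun p _ => (continuous_finsetSum _ fun q _ =>
        (contDiff_curv hA i j p q).continuous.mul
          (contDiff_pi.1 (hzA k).1 q).continuous).pow 2)
    have iT : ∀ k, IntegrableOn (T k) Ω := fun k => intOn hb (cT k).continuousOn
    have cG : ∀ k l, ContinuousOn (fun x => wt a x * |gram (bas k) (bas l) (z k) (z l) x|)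
        (closure Ω) := fun k l =>
      (contOn ha contDiffOn_wt).mul (((continuous_finsetSum _ fun p _ =>
        (contDiff_pi.1 (hzA k).1 p).continuous.mul (contDiff_pi.1 (hzA l).1 p).continuous).sub
        continuous_const).continuousOn.abs)
    have iG : ∀ k, IntegrableOn
        (fun x => ∑ l, wt a x * |gram (bas k) (bas l) (z k) (z l) x|) Ω := fun k =>
      integrable_finsetSum _ fun l _ => intOn hb (cG k l)
    have iG2 : IntegrableOn
        (fun x => K * ∑ k, ∑ l, wt a x * |gram (bas k) (bas l) (z k) (z l) x|) Ω :=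
      (integrable_finsetSum _ fun k _ => iG k).const_mul K
    have iP : IntegrableOn (fun x => ψ x * ∑ p, ∑ q, curv A x i j p q ^ 2) Ω :=
      intOn hb (hψ.1.continuous.mul cP).continuousOn
    have iS : IntegrableOn (fun x => ∑ k, T k x) Ω := integrable_finsetSum _ fun k _ => iT k
    have iD : IntegrableOn (fun x => ψ x * (∑ p, ∑ q, curv A x i j p q ^ 2) - ∑ k, T k x) Ω :=
      iP.sub iS
    have split : ∫ x in Ω, ψ x * ∑ p, ∑ q, curv A x i j p q ^ 2
        = (∫ x in Ω, (ψ x * (∑ p, ∑ q, curv A x i j p q ^ 2) - ∑ k, T k x))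
          + ∑ k, ∫ x in Ω, T k x := by
      rw [integral_sub iP iS, integral_finsetSum _ fun k _ => iT k]
      ring
    rw [split]
    refine (abs_add_le _ _).trans ?_
    have b1 : |∑ k, ∫ x in Ω, T k x| ≤ (∑ k, C1 k) * θ := by
      rw [Finset.sum_mul]
      exact (Finset.abs_sum_le_sum_abs _ _).trans
        (Finset.sum_le_sum fun k _ => hC1 k θ hθ hθ1 (z k) (hzA k))
    have b2 : |∫ x in Ω, (ψ x * (∑ p, ∑ q, curv A x i j p q ^ 2) - ∑ k, T k x)|
        ≤ K * (∑ k, ∑ l, C2 k l) * θ := by
      refine abs_integral_le_integral_abs.trans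
        ((setIntegral_mono_on iD.abs iG2 ho.measurableSet fun x hx => ?_).trans ?_)
      · simp only [hT, ← Finset.mul_sum, ← mul_sub]
        rw [abs_mul]
        by_cases hs : x ∈ tsupport ψ
        swap
        · rw [image_eq_zero_of_notMem_tsupport hs, abs_zero, zero_mul]
          have := (wt_pos ha hx).le
          positivity
        have hN : ∀ p q, |curv A x i j p q| ≤ M2 := fun p q => by
          have h1 := Finset.single_le_sum (f := fun q => |curv A x i j p q|)
            (fun _ _ => abs_nonneg _) (Finset.mem_univ q)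
          have h2 := Finset.single_le_sum (f := fun p => ∑ q, |curv A x i j p q|)
            (fun _ _ => Finset.sum_nonneg fun _ _ => abs_nonneg _) (Finset.mem_univ p)
          linarith [le_abs_self (∑ p, ∑ q, |curv A x i j p q|), hM2 x hx]
        refine (mul_le_mul ((hM1 x hx)) (frame_gap (fun k => z k x) (curv A x i j) hN)
          (abs_nonneg _) hM10).trans ?_
        have hg : ∀ k l, (∑ q, z k x q * z l x q) - (if k = l then 1 else 0)
            = gram (bas k) (bas l) (z k) (z l) x := fun k l => by
          simp [gram, bas, eq_comm]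
        simp only [hg]
        have hnn : 0 ≤ ∑ k, ∑ l, |gram (bas k) (bas l) (z k) (z l) x| := by positivity
        calc M1 * ((m : ℝ) ^ 3 * M2 ^ 2 * ∑ k, ∑ l, |gram (bas k) (bas l) (z k) (z l) x|)
              = K * (c * ∑ k, ∑ l, |gram (bas k) (bas l) (z k) (z l) x|) := by
              rw [hK]; field_simp
          _ ≤ _ := mul_le_mul_of_nonneg_left
              (mul_le_mul_of_nonneg_right (hcK x hs).1 hnn) (by positivity)
      · rw [integral_const_mul, integral_finsetSum _ fun k _ => iG k, mul_assoc]
        refine mul_le_mul_of_nonneg_left ?_ (by positivity)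
        rw [Finset.sum_mul]
        refine Finset.sum_le_sum fun k _ => ?_
        rw [integral_finsetSum _ fun l _ => intOn hb (cG k l), Finset.sum_mul]
        exact Finset.sum_le_sum fun l _ => hC2 k l θ hθ hθ1 _ _ (hzA k) (hzA l)
    linarith
  intro x hx p q
  have h1 := (Finset.sum_eq_zero_iff_of_nonneg
    fun p _ => Finset.sum_nonneg fun q _ => sq_nonneg _).1 (hz x hx) p (Finset.mem_univ p)
  exact eq_zero_of_pow_eq_zero
    ((Finset.sum_eq_zero_iff_of_nonneg fun q _ => sq_nonneg _).1 h1 q (Finset.mem_univ q))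

/-- The excess quadratic form on scalar gradients. -/
noncomputable def gap (sig : Coef) (x : Sp) (v : Fin 3 → ℝ) : ℝ :=
  ∑ i, ∑ j, (sig x i j - euclid x i j) * v i * v j

theorem gap_grad_eq_zero (ha : 0 < a) (hm : 0 < m) (hA : IsOrthConn A) (hs : AboveEuclid a b sig)
    (hS : SameOuterData a b euclid (0 : Conn m) sig A) {h : Sp → ℝ}
    (hh : ContDiffOn ℝ ∞ h ({0}ᶜ : Set Sp))
    (hharm : ∀ x ∈ shell a b, ∑ i, dd i (dd i h) x = 0)
    (hin : ∀ x, sqLen x = a ^ 2 → h x = 0) (hle : ∀ x ∈ shell a b, rad a x ≤ h x) :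
    ∀ x ∈ shell a b, gap sig x (fun i => dd i h x) = 0 := by
  set Ω := shell a b with hΩ
  have hb : Bornology.IsBounded Ω := isBounded_shell
  have ho : IsOpen Ω := isOpen_shell
  have cQ : ContinuousOn (fun x => gap sig x (fun i => dd i h x)) (closure Ω) :=
    continuousOn_finsetSum _ fun i _ => continuousOn_finsetSum _ fun j _ =>
      ((((hs.1 i j).sub continuousOn_const).mul
        (contOn ha (contDiffOn_dd isOpen_punctured hh i))).mul
        (contOn ha (contDiffOn_dd isOpen_punctured hh j)))
  refine eq_zero_of_tests cQ fun ψ hψ => ?_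
  let e : Fin m → ℝ := fun q => if q = ⟨0, hm⟩ then 1 else 0
  obtain ⟨C, hC0, hC⟩ := exists_gram_bound (b := b) ha hA e e
  obtain ⟨c, hc, hcK⟩ := weight_lower ha hψ.2.1.isCompact hψ.2.2
  obtain ⟨M1, hM10, hM1⟩ := exists_max (a := a) (b := b) hψ.1.continuous.continuousOn
  obtain ⟨M2, hM20, hM2⟩ := exists_max (a := a) (b := b) cQ
  obtain ⟨M3, hM30, hM3⟩ := exists_max (a := a) (b := b)
    (f := fun x => h x ^ 2 * ∑ i, ∑ j, |sig x i j - euclid x i j|)
    (((contOn ha hh).pow 2).mul (continuousOn_finsetSum _ fun i _ =>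
      continuousOn_finsetSum _ fun j _ => ((hs.1 i j).sub continuousOn_const).abs))
  refine eq_zero_of_le_mul (C := M1 * (M2 / c) * C + 2 * M1 + 2 * M1 * (M3 / c))
    (by positivity) fun θ hθ hθ1 => ?_
  obtain ⟨z, hz, hex⟩ := exists_min_seq ha hA hs hS hh hharm hin hle e hθ
  have hgb := hC θ hθ hθ1 z z hz hz
  obtain ⟨hzc, -, hE⟩ := hz
  have iG : IntegrableOn (fun x => wt a x * |gram e e z z x|) Ω :=
    intOn hb ((contOn ha contDiffOn_wt).mul (((continuous_finsetSum _ fun p _ =>
      (contDiff_pi.1 hzc p).continuous.mul (contDiff_pi.1 hzc p).continuous).sub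
      continuous_const).continuousOn.abs))
  have j1 : IntegrableOn (fun x => M1 * (M2 / c) * (wt a x * |gram e e z z x|)) Ω := iG.const_mul _
  have j2 : IntegrableOn (fun x => 2 * M1 * excess sig x (prodD A h z x)) Ω :=
    (intOn hb (continuousOn_excess hs fun i p => continuousOn_prodD ha hA hh hzc i p)).const_mul _
  have j3 : IntegrableOn
      (fun x => 2 * M1 * (M3 / c) * (rad a x ^ 2 * ∑ i, ∑ p, covD A z x i p ^ 2)) Ω :=
    (intOn hb (continuousOn_grad_sq (b := b) ha hA hzc)).const_mul _
  have j12 : IntegrableOn (fun x => M1 * (M2 / c) * (wt a x * |gram e e z z x|)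
      + 2 * M1 * excess sig x (prodD A h z x)) Ω := j1.add j2
  have j123 : IntegrableOn (fun x => M1 * (M2 / c) * (wt a x * |gram e e z z x|)
      + 2 * M1 * excess sig x (prodD A h z x)
      + 2 * M1 * (M3 / c) * (rad a x ^ 2 * ∑ i, ∑ p, covD A z x i p ^ 2)) Ω := j12.add j3
  have iI : IntegrableOn (fun x => ψ x * gap sig x (fun i => dd i h x)) Ω :=
    intOn hb (hψ.1.continuous.continuousOn.mul cQ)
  refine abs_integral_le_integral_abs.trans
    ((setIntegral_mono_on iI.abs j123 ho.measurableSet fun x hx => ?_).trans ?_)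
  · have hw := (wt_pos ha hx).le
    have hx' : x ∈ closure (shell a b) := subset_closure hx
    have hE0 := excess_nonneg hs hx' (prodD A h z x)
    by_cases hsup : x ∈ tsupport ψ
    swap
    · rw [image_eq_zero_of_notMem_tsupport hsup, zero_mul, abs_zero]
      positivity
    obtain ⟨hcw, hcr⟩ := hcK x hsup
    set Q := gap sig x (fun i => dd i h x) with hQ
    have hQ0 : 0 ≤ Q := by
      have := (hs.2 x hx').2 fun i => dd i h x
      simp only [Fin.sum_univ_three] at this
      simp [hQ, gap, euclid, Fin.sum_univ_three]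
      linarith
    have hQM : Q ≤ M2 := (le_abs_self _).trans (hM2 x hx)
    set X := ∑ i, ∑ p, covD A z x i p ^ 2 with hX
    have hgram : gram e e z z x = (∑ p, z x p ^ 2) - 1 := by
      simp [gram, e, sq]
    have h1 : Q * ∑ p, z x p ^ 2
        = excess sig x (fun i p => prodD A h z x i p - h x * covD A z x i p) := by
      simp only [hQ, gap, excess, prodD, add_sub_cancel_right, Finset.mul_sum]
      refine Finset.sum_congr rfl fun p _ => ?_
      simp only [Finset.sum_mul]
      exact Finset.sum_congr rfl fun i _ => Finset.sum_congr rfl fun j _ => by ring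
    have h2 : excess sig x (fun i p => h x * covD A z x i p) ≤ M3 * X := by
      have hM := (le_abs_self _).trans (hM3 x hx)
      refine le_trans ?_ (mul_le_mul_of_nonneg_right hM (by positivity))
      rw [hX, Finset.sum_comm (γ := Fin 3) (f := fun i p => covD A z x i p ^ 2), Finset.mul_sum]
      refine Finset.sum_le_sum fun p _ => ?_
      rw [mul_assoc, Finset.sum_mul, Finset.mul_sum]
      refine Finset.sum_le_sum fun i _ => ?_
      rw [Finset.sum_mul, Finset.mul_sum]
      refine Finset.sum_le_sum fun j _ => ?_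
      have hij : |covD A z x i p * covD A z x j p| ≤ ∑ k, covD A z x k p ^ 2 := by
        have s1 := Finset.single_le_sum (f := fun k => covD A z x k p ^ 2)
          (fun _ _ => sq_nonneg _) (Finset.mem_univ i)
        have s2 := Finset.single_le_sum (f := fun k => covD A z x k p ^ 2)
          (fun _ _ => sq_nonneg _) (Finset.mem_univ j)
        rw [abs_le]
        constructor <;> nlinarith [sq_nonneg (covD A z x i p + covD A z x j p),
          sq_nonneg (covD A z x i p - covD A z x j p)]
      calc (sig x i j - euclid x i j) * (h x * covD A z x i p) * (h x * covD A z x j p)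
            = h x ^ 2 * ((sig x i j - euclid x i j) * (covD A z x i p * covD A z x j p)) := by ring
        _ ≤ h x ^ 2 * (|sig x i j - euclid x i j| * ∑ k, covD A z x k p ^ 2) := by
            refine mul_le_mul_of_nonneg_left ((le_abs_self _).trans ?_) (sq_nonneg _)
            rw [abs_mul]
            exact mul_le_mul_of_nonneg_left hij (abs_nonneg _)
    have h3 := excess_sub_le hs hx' (prodD A h z x) (fun i p => h x * covD A z x i p)
    have h4 : Q ≤ Q * |gram e e z z x| + Q * ∑ p, z x p ^ 2 := by
      rw [hgram, ← mul_add]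
      refine le_mul_of_one_le_right hQ0 ?_
      linarith [neg_abs_le ((∑ p, z x p ^ 2) - 1)]
    have h5 : Q * |gram e e z z x| ≤ M2 / c * (wt a x * |gram e e z z x|) := by
      calc Q * |gram e e z z x| ≤ M2 * |gram e e z z x| :=
            mul_le_mul_of_nonneg_right hQM (abs_nonneg _)
        _ = M2 / c * (c * |gram e e z z x|) := by field_simp
        _ ≤ _ := mul_le_mul_of_nonneg_left
            (mul_le_mul_of_nonneg_right hcw (abs_nonneg _)) (by positivity)
    have h6 : M3 * X ≤ M3 / c * (rad a x ^ 2 * X) := by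
      calc M3 * X = M3 / c * (c * X) := by field_simp
        _ ≤ _ := mul_le_mul_of_nonneg_left
            (mul_le_mul_of_nonneg_right hcr (by positivity)) (by positivity)
    rw [abs_mul, abs_of_nonneg hQ0]
    calc |ψ x| * Q ≤ M1 * (M2 / c * (wt a x * |gram e e z z x|)
          + 2 * excess sig x (prodD A h z x) + 2 * (M3 / c * (rad a x ^ 2 * X))) :=
          mul_le_mul (hM1 x hx) (by linarith) hQ0 hM10
      _ = _ := by ring
  · rw [integral_add j12 j3, integral_add j1 j2, integral_const_mul, integral_const_mul,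
      integral_const_mul]
    have hθ2 : θ ^ 2 ≤ θ := by nlinarith
    have q1 := mul_le_mul_of_nonneg_left hgb (by positivity : 0 ≤ M1 * (M2 / c))
    have q2 := mul_le_mul_of_nonneg_left (hex.trans hθ2) (by positivity : 0 ≤ 2 * M1)
    have q3 := mul_le_mul_of_nonneg_left (hE.trans hθ2) (by positivity : 0 ≤ 2 * M1 * (M3 / c))
    linarith

/-- A positive semidefinite form vanishes on sums of its null vectors. -/
theorem gap_combine (hs : AboveEuclid a b sig) {x : Sp} (hx : x ∈ closure (shell a b))
    {u v : Fin 3 → ℝ} (hu : gap sig x u = 0) (hv : gap sig x v = 0) (s t : ℝ) :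
    gap sig x (fun i => s * u i + t * v i) = 0 := by
  have nn : ∀ w, 0 ≤ gap sig x w := fun w => by
    have := (hs.2 x hx).2 w
    simp only [Fin.sum_univ_three] at this
    simp [gap, euclid, Fin.sum_univ_three]
    linarith
  have sm : ∀ (r : ℝ) w, gap sig x (fun i => r * w i) = r ^ 2 * gap sig x w := fun r w => by
    simp only [gap, Finset.mul_sum]
    exact Finset.sum_congr rfl fun i _ => Finset.sum_congr rfl fun j _ => by ring
  have e : gap sig x (fun i => s * u i + t * v i) + gap sig x (fun i => s * u i - t * v i)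
      = 2 * gap sig x (fun i => s * u i) + 2 * gap sig x (fun i => t * v i) := by
    simp only [gap, Finset.mul_sum, ← Finset.sum_add_distrib]
    exact Finset.sum_congr rfl fun i _ => Finset.sum_congr rfl fun j _ => by ring
  rw [sm, sm, hu, hv] at e
  linarith [nn (fun i => s * u i + t * v i), nn (fun i => s * u i - t * v i)]

theorem sig_eq_euclid (ha : 0 < a) (hb : 0 < b) (hm : 0 < m) (hA : IsOrthConn A)
    (hs : AboveEuclid a b sig) (hS : SameOuterData a b euclid (0 : Conn m) sig A) :
    ∀ x ∈ shell a b, ∀ i j, sig x i j = euclid x i j := by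
  intro x hx
  have hx' : x ∈ closure (shell a b) := subset_closure hx
  have h0 := shell_ne_zero ha hx
  have r0 : gap sig x (fun i => dd i (rad a) x) = 0 :=
    gap_grad_eq_zero ha hm hA hs hS contDiffOn_rad
      (fun y hy => harmonic_rad (shell_ne_zero ha hy)) (fun y hy => rad_inner ha hy)
      (fun y _ => le_rfl) x hx
  set J := invLen x with hJ
  have hJ0 : 0 < J := inv_pos.2 (Real.sqrt_pos.2 (sqLen_pos h0))
  have hJa : a * J < 1 := by
    have := rad_pos ha hx.1
    simp only [rad, sub_pos] at this
    calc a * J < a * (1 / a) := mul_lt_mul_of_pos_left this ha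
      _ = 1 := by field_simp
  set w := 1 - a ^ 3 * J ^ 3 with hw
  have hw0 : w ≠ 0 := by
    have : (a * J) ^ 3 < 1 := pow_lt_one₀ (by positivity) hJa (by norm_num)
    rw [mul_pow] at this
    rw [hw]; exact (sub_pos.2 this).ne'
  have unit : ∀ k, gap sig x (fun i => if i = k then 1 else 0) = 0 := by
    intro k
    set C := 3 * a * b + 1 with hC
    have t0 : gap sig x (fun i => dd i (tilt a k C) x) = 0 :=
      gap_grad_eq_zero ha hm hA hs hS (contDiffOn_tilt k C)
        (fun y hy => harmonic_tilt (shell_ne_zero ha hy) k C) (fun y hy => tilt_inner ha hy k C)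
        (fun y hy => rad_le_tilt ha hy hb k) x hx
    have := gap_combine hs hx' t0 r0 (1 / w) (-(C + 3 * a ^ 3 * x k * J ^ 2) / w)
    convert this using 2
    funext i
    rw [dd_tilt h0, dd_rad h0]
    simp only [← hJ, ← hw]
    field_simp
    ring
  have diag : ∀ k, sig x k k - euclid x k k = 0 := fun k => by
    simpa [gap] using unit k
  intro i j
  have hsum := gap_combine hs hx' (unit i) (unit j) 1 1
  have hg : gap sig x (fun l => 1 * (if l = i then 1 else 0) + 1 * (if l = j then 1 else 0))
      = (sig x i i - euclid x i i) + (sig x j j - euclid x j j)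
        + ((sig x i j - euclid x i j) + (sig x j i - euclid x j i)) := by
    simp [gap, mul_add, add_mul, Finset.sum_add_distrib]
    ring
  rw [hg, diag, diag, (hs.2 x hx').1 j i] at hsum
  have he : euclid x j i = euclid x i j := by simp [euclid, eq_comm]
  linarith

/-- Outer-sphere data equal to those of the flat pair determine the metric and flatness. -/
theorem rigid (ha : 0 < a) (hb : 0 < b) (hm : 0 < m) (hA : IsOrthConn A) (hs : AboveEuclid a b sig)
    (hS : SameOuterData a b euclid (0 : Conn m) sig A) :
    ∀ x ∈ closure (shell a b), ∀ i j, sig x i j = euclid x i j ∧ ∀ p q, curv A x i j p q = 0 := by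
  intro x hx i j
  refine ⟨?_, fun p q => ?_⟩
  · exact EqOn.of_subset_closure (f := fun y => sig y i j) (g := fun y => euclid y i j)
      (fun y hy => sig_eq_euclid ha hb hm hA hs hS y hy i j) (hs.1 i j) continuousOn_const
      subset_closure Subset.rfl hx
  · exact EqOn.of_subset_closure (f := fun y => curv A y i j p q) (g := fun _ => (0 : ℝ))
      (fun y hy => curv_eq_zero ha hA hs hS i j y hy p q)
      (contDiff_curv hA i j p q).continuous.continuousOn continuousOn_const
      subset_closure Subset.rfl hx

end Vale.Agent.P088
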