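import Vale.Agent.P088.Gauge

/-! Outer-sphere data of the flat pair determine the pair up to gauge (P088). -/

open Set Matrix
open scoped ContDiff

namespace Vale.Agent.P088

set_option maxSynthPendingDepth 3

variable {a b : ℝ} {m : ℕ} {A : Conn m} {sig : Coef}

/-- The standard frame. -/
def unitVec (q : Fin m) : Fib m := Pi.single q 1

/-- Multiplication by a matrix. -/
noncomputable def matOp (J : Fin m → Fin m → ℝ) : Fib m →L[ℝ] Fib m :=
  ∑ p, ∑ r, J p r •
    (ContinuousLinearMap.proj r : Fib m →L[ℝ] ℝ).smulRight (Pi.single p (1 : ℝ) : Fib m)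

theorem matOp_apply (J : Fin m → Fin m → ℝ) (v : Fib m) (p : Fin m) :
    matOp J v p = ∑ r, J p r * v r := by
  simp [matOp, Pi.single_apply]

theorem matOp_comm {J : Fin m → Fin m → ℝ}
    (hJ : ∀ y i p q, ∑ r, J p r * A y i r q = ∑ r, A y i p r * J r q) (y u : Sp) (v : Fib m) :
    matOp J (conOp A y u v) = conOp A y u (matOp J v) := by
  funext p
  simp only [matOp_apply, conOp_apply, Finset.mul_sum]
  rw [Finset.sum_comm]
  refine Finset.sum_congr rfl fun i _ => ?_
  rw [Finset.sum_comm]
  conv_rhs => rw [Finset.sum_comm]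
  refine Finset.sum_congr rfl fun q _ => ?_
  calc ∑ r, J p r * (u i * (A y i r q * v q)) = u i * v q * ∑ r, J p r * A y i r q := by
        rw [Finset.mul_sum]; exact Finset.sum_congr rfl fun r _ => by ring
    _ = _ := by
        rw [hJ, Finset.mul_sum]; exact Finset.sum_congr rfl fun r _ => by ring

/-- Equal outer data give the Euclidean metric and a gauge equal to one on the outer sphere. -/
theorem exists_gauge (ha : 0 < a) (hab : a < b) (hm : 0 < m) (hA : IsOrthConn A)
    (hs : AboveEuclid a b sig) (hS : SameOuterData a b euclid (0 : Conn m) sig A) :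
    (∀ x ∈ closure (shell a b), ∀ i j, sig x i j = euclid x i j) ∧
    ∃ U : Sp → Fin m → Fin m → ℝ,
      (∀ p q, ContDiffOn ℝ ∞ (fun x => U x p q) (closure (shell a b))) ∧
      (∀ x ∈ closure (shell a b), sqLen x = b ^ 2 → ∀ p q, U x p q = if p = q then 1 else 0) ∧
      ∀ x ∈ closure (shell a b),
        (∀ p q, ∑ r, U x r p * U x r q = if p = q then 1 else 0) ∧
        (∀ J : Fin m → Fin m → ℝ,
          (∀ y i p q, ∑ r, J p r * A y i r q = ∑ r, A y i p r * J r q) →
          ∀ p q, ∑ r, J p r * U x r q = ∑ r, U x p r * J r q) ∧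
        ∀ p q, DifferentiableAt ℝ (fun y => U y p q) x ∧
          ∀ i, A x i p q = ∑ r, U x r p * dd i (fun y => U y r q) x := by
  have hb : 0 < b := ha.trans hab
  have hrig := rigid ha hb hm hA hs hS
  refine ⟨fun x hx i j => (hrig x hx i j).1, ?_⟩
  choose sol hsol using fun (q : Fin m) (y : Sp) => exists_transport hA b y (unitVec q)
  set V : Sp → Fin m → Fin m → ℝ := fun y p q => sol q y 1 p with hV
  have hdV : ∀ x ∈ closure (shell a b), ∀ p q, DifferentiableAt ℝ (fun y => V y p q) x ∧
      ∀ i, dd i (fun y => V y p q) x = -∑ r, A x i p r * V x r q := by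
    intro x hx p q
    have H : HasFDerivAt (fun y => V y p q) ((ContinuousLinearMap.proj p : Fib m →L[ℝ] ℝ).comp
        (-(conOp A x).flip (sol q x 1))) x :=
      (ContinuousLinearMap.proj p : Fib m →L[ℝ] ℝ).hasFDerivAt.comp x
        (hasFDerivAt_transport ha hab hA (fun z hz i j p q => (hrig z hz i j).2 p q)
          (fun l n p q z hz => rot_eq_zero ha hab hA hs hS l n p q hz) (hsol q) hx)
    refine ⟨H.differentiableAt, fun i => ?_⟩
    unfold dd
    rw [H.fderiv]
    simp [conOp_apply, hV, Pi.single_apply]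
  have hVc := contDiffOn_parallel hA hdV
  have hVV : ∀ x p q, ∑ r, V x r p * V x r q = if p = q then 1 else 0 := fun x p q => by
    rw [hV, transport_pair hA (hsol p x) (hsol q x)]
    simp [unitVec, Pi.single_apply, eq_comm]
  have hVV' : ∀ x p q, ∑ r, V x p r * V x q r = if p = q then 1 else 0 := fun x p q => by
    have h : (Matrix.of (V x))ᵀ * Matrix.of (V x) = 1 := by
      ext i j; simpa [Matrix.mul_apply, Matrix.one_apply] using hVV x i j
    have h2 := Matrix.ext_iff.2 (mul_eq_one_comm.1 h) p q
    simpa [Matrix.mul_apply, Matrix.one_apply] using h2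
  refine ⟨fun x p q => V x q p, fun p q => hVc q p, fun x hx hxb p q => ?_, fun x hx => ⟨hVV' x, ?_,
    fun p q => ⟨(hdV x hx q p).1, fun i => ?_⟩⟩⟩
  · show sol p x 1 q = _
    rw [transport_outer hb hA hxb (hsol p x)]
    simp [unitVec, Pi.single_apply, eq_comm]
  · intro J hJ
    have hc : ∀ p q, ∑ r, J p r * V x r q = ∑ r, V x p r * J r q := by
      intro p q
      have hw : IsTransport b A x (matOp J (unitVec q)) (fun t => ∑ r, J r q • sol r x t) := by
        refine ⟨?_, fun t ht => ?_⟩
        · show ∑ r, J r q • sol r x 0 = _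
          simp only [(hsol _ x).1]
          funext p
          simp [matOp_apply, unitVec, Pi.single_apply, Finset.sum_apply]
        · refine (HasDerivWithinAt.fun_sum fun r _ =>
            ((hsol r x).2 t ht).const_smul (J r q)).congr_deriv ?_
          simp only [map_sum, map_smul, smul_neg, Finset.sum_neg_distrib]
      have h := congrFun (transport_comm hA (matOp J) (matOp_comm hJ) (hsol q x) hw) p
      rw [matOp_apply] at h
      simpa [hV, mul_comm, Finset.sum_apply] using h
    set M := Matrix.of (V x) with hM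
    set N := Matrix.of J with hN
    have hU : Mᵀ * M = 1 := by
      ext i j; simpa [Matrix.mul_apply, Matrix.one_apply, hM] using hVV x i j
    have hU' : M * Mᵀ = 1 := mul_eq_one_comm.1 hU
    have hNM : N * M = M * N := by
      ext i j; simpa [Matrix.mul_apply, hM, hN] using hc i j
    have e : N * Mᵀ = Mᵀ * N := by
      calc N * Mᵀ = Mᵀ * M * N * Mᵀ := by rw [hU, Matrix.one_mul]
        _ = Mᵀ * (M * N) * Mᵀ := by simp only [Matrix.mul_assoc]
        _ = Mᵀ * N * (M * Mᵀ) := by rw [← hNM]; simp only [Matrix.mul_assoc]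
        _ = Mᵀ * N := by rw [hU', Matrix.mul_one]
    intro p q
    simpa [Matrix.mul_apply, hM, hN] using congrFun (congrFun e p) q
  · show A x i p q = ∑ r, V x p r * dd i (fun y => V y q r) x
    simp only [(hdV x hx q _).2 i, mul_neg, Finset.mul_sum, Finset.sum_neg_distrib]
    rw [Finset.sum_comm]
    have e : ∀ s, ∑ r, V x p r * (A x i q s * V x s r) = A x i q s * (if p = s then 1 else 0) := by
      intro s
      rw [← hVV' x p s, Finset.mul_sum]
      exact Finset.sum_congr rfl fun r _ => by ring
    simp only [e, mul_ite, mul_one, mul_zero, Finset.sum_ite_eq, Finset.mem_univ, if_true]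
    rw [hA.2 x i p q]

end Vale.Agent.P088
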