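import Vale.Agent.P088.Defs

/-! Explicit positive harmonic functions on the shell (P088). -/

open MeasureTheory Set
open scoped ContDiff

namespace Vale.Agent.P088

variable {a b : ℝ}

theorem isOpen_punctured : IsOpen ({0}ᶜ : Set Sp) := isOpen_compl_singleton

theorem sqLen_nonneg (x : Sp) : 0 ≤ sqLen x := Finset.sum_nonneg fun _ _ => sq_nonneg _

theorem contDiff_sqLen : ContDiff ℝ ∞ sqLen := ContDiff.sum fun k _ => (contDiff_apply ℝ ℝ k).pow 2

theorem ne_zero_of_sqLen {x : Sp} (h : 0 < sqLen x) : x ≠ 0 := by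
  rintro rfl; simp [sqLen] at h

theorem sqLen_pos {x : Sp} (h : x ≠ 0) : 0 < sqLen x := by
  obtain ⟨k, hk⟩ := Function.ne_iff.1 h
  exact Finset.sum_pos' (fun i _ => sq_nonneg _) ⟨k, Finset.mem_univ k, pow_two_pos_of_ne_zero hk⟩

theorem isOpen_shell : IsOpen (shell a b) :=
  (isOpen_lt continuous_const contDiff_sqLen.continuous).inter
    (isOpen_lt contDiff_sqLen.continuous continuous_const)

theorem isBounded_shell : Bornology.IsBounded (shell a b) := by
  refine (Metric.isBounded_closedBall (x := (0 : Sp)) (r := |b|)).subset fun x hx => ?_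
  rw [mem_closedBall_zero_iff, pi_norm_le_iff_of_nonneg (abs_nonneg b)]
  intro k
  have h1 : x k ^ 2 ≤ sqLen x :=
    Finset.single_le_sum (f := fun i => x i ^ 2) (fun i _ => sq_nonneg _) (Finset.mem_univ k)
  exact sq_le_sq.1 (h1.trans hx.2.le)

theorem closure_shell_subset : closure (shell a b) ⊆ {x | a ^ 2 ≤ sqLen x ∧ sqLen x ≤ b ^ 2} :=
  closure_minimal (fun _ hx => ⟨hx.1.le, hx.2.le⟩)
    ((isClosed_le continuous_const contDiff_sqLen.continuous).inter
      (isClosed_le contDiff_sqLen.continuous continuous_const))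

theorem closure_shell_punctured (ha : 0 < a) : closure (shell a b) ⊆ ({0}ᶜ : Set Sp) :=
  fun _ hx => ne_zero_of_sqLen (lt_of_lt_of_le (pow_pos ha 2) (closure_shell_subset hx).1)

/-- The inverse Euclidean length. -/
noncomputable def invLen (x : Sp) : ℝ := (Real.sqrt (sqLen x))⁻¹

theorem contDiffOn_invLen : ContDiffOn ℝ ∞ invLen ({0}ᶜ : Set Sp) := by
  intro x hx
  have h := sqLen_pos (x := x) hx
  exact (((Real.contDiffAt_sqrt h.ne').comp x contDiff_sqLen.contDiffAt).inv
    (Real.sqrt_pos.2 h).ne').contDiffWithinAt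

theorem dd_invLen {x : Sp} (hx : x ≠ 0) (i : Fin 3) : dd i invLen x = -(x i) * invLen x ^ 3 := by
  have h := sqLen_pos hx
  have hs := Real.sqrt_pos.2 h
  have hS : HasFDerivAt sqLen (∑ k, (2 * x k) • (ContinuousLinearMap.proj k : Sp →L[ℝ] ℝ)) x := by
    have := HasFDerivAt.fun_sum (u := Finset.univ) (A := fun (k : Fin 3) (y : Sp) => y k ^ 2)
      (A' := fun k => (2 * x k) • (ContinuousLinearMap.proj k : Sp →L[ℝ] ℝ)) (x := x)
      (fun k _ => by simpa using (hasFDerivAt_apply (𝕜 := ℝ) k x).pow 2)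
    exact this
  have H := (hasDerivAt_inv hs.ne').comp_hasFDerivAt x (hS.sqrt h.ne')
  unfold dd
  show fderiv ℝ ((fun y : ℝ => y⁻¹) ∘ fun y => √(sqLen y)) x _ = _
  rw [H.fderiv]
  simp [invLen, Pi.single_apply]
  field_simp

theorem dd_congr {f g : Sp → ℝ} {x : Sp} (hf : f =ᶠ[nhds x] g) (i : Fin 3) :
    dd i f x = dd i g x := by
  unfold dd; rw [hf.fderiv_eq]

/-- The radial harmonic function vanishing on the inner sphere. -/
noncomputable def rad (a : ℝ) (x : Sp) : ℝ := 1 / a - invLen x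

/-- A harmonic function vanishing on the inner sphere, positive on the shell. -/
noncomputable def tilt (a : ℝ) (k : Fin 3) (C : ℝ) (x : Sp) : ℝ :=
  C * rad a x + (x k - a ^ 3 * (x k * invLen x ^ 3))

theorem contDiffOn_rad : ContDiffOn ℝ ∞ (rad a) ({0}ᶜ : Set Sp) :=
  contDiffOn_const.sub contDiffOn_invLen

theorem contDiffOn_tilt (k : Fin 3) (C : ℝ) : ContDiffOn ℝ ∞ (tilt a k C) ({0}ᶜ : Set Sp) :=
  (contDiffOn_const.mul contDiffOn_rad).add
    ((contDiff_apply ℝ ℝ k).contDiffOn.sub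
      (contDiffOn_const.mul ((contDiff_apply ℝ ℝ k).contDiffOn.mul (contDiffOn_invLen.pow 3))))

theorem diffAt_invLen {x : Sp} (hx : x ≠ 0) : DifferentiableAt ℝ invLen x :=
  (contDiffOn_invLen.differentiableOn (by simp)).differentiableAt (isOpen_punctured.mem_nhds hx)

theorem dd_rad {x : Sp} (hx : x ≠ 0) (i : Fin 3) : dd i (rad a) x = x i * invLen x ^ 3 := by
  show fderiv ℝ (fun y => 1 / a - invLen y) x (Pi.single i 1) = _
  rw [fderiv_const_sub]
  have := dd_invLen hx i
  unfold dd at this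
  simp [this]

theorem dd_coord (i k : Fin 3) (x : Sp) : dd i (fun y => y k) x = if i = k then 1 else 0 := by
  unfold dd
  rw [(hasFDerivAt_apply (𝕜 := ℝ) k x).fderiv]
  simp [Pi.single_apply, eq_comm]

theorem dd_tilt {x : Sp} (hx : x ≠ 0) (k : Fin 3) (C : ℝ) (i : Fin 3) :
    dd i (tilt a k C) x = C * (x i * invLen x ^ 3)
      + ((if i = k then 1 else 0) * (1 - a ^ 3 * invLen x ^ 3)
        + 3 * a ^ 3 * (x k * x i * invLen x ^ 5)) := by
  have d := diffAt_invLen hx
  have dr : DifferentiableAt ℝ (rad a) x := d.const_sub _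
  have dk : DifferentiableAt ℝ (fun y : Sp => y k) x := (hasFDerivAt_apply k x).differentiableAt
  have e1 := dd_rad (a := a) hx i
  have e2 := dd_invLen hx i
  have e3 := dd_coord i k x
  unfold dd at e1 e2 e3 ⊢
  show fderiv ℝ (fun y => C * rad a y + (y k - a ^ 3 * (y k * invLen y ^ 3))) x _ = _
  rw [fderiv_fun_add (by fun_prop) (by fun_prop), fderiv_fun_sub (by fun_prop) (by fun_prop),
    fderiv_const_mul dr, fderiv_const_mul (by fun_prop), fderiv_fun_mul dk (by fun_prop),
    fderiv_fun_pow 3 d]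
  simp [e1, e2, e3]
  split_ifs <;> ring

theorem harmonic_rad {x : Sp} (hx : x ≠ 0) : ∑ i, dd i (dd i (rad a)) x = 0 := by
  have hev : ∀ i, dd i (rad a) =ᶠ[nhds x] fun y => y i * invLen y ^ 3 := fun i =>
    Filter.eventually_of_mem (isOpen_punctured.mem_nhds hx) fun y hy => dd_rad hy i
  have d := diffAt_invLen hx
  have e : ∀ i, dd i (dd i (rad a)) x = invLen x ^ 3 - 3 * (x i ^ 2 * invLen x ^ 5) := by
    intro i
    rw [dd_congr (hev i) i]
    have e2 := dd_invLen hx i
    have e3 := dd_coord i i x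
    unfold dd at e2 e3 ⊢
    rw [fderiv_fun_mul (hasFDerivAt_apply i x).differentiableAt (by fun_prop), fderiv_fun_pow 3 d]
    simp [e2, e3]
    ring
  have hS : sqLen x * invLen x ^ 2 = 1 := by
    have h := sqLen_pos hx
    simp only [invLen, inv_pow, Real.sq_sqrt h.le]
    field_simp
  simp only [e, Fin.sum_univ_three]
  simp only [sqLen, Fin.sum_univ_three] at hS
  linear_combination (-3 * invLen x ^ 3) * hS

theorem harmonic_tilt {x : Sp} (hx : x ≠ 0) (k : Fin 3) (C : ℝ) :
    ∑ i, dd i (dd i (tilt a k C)) x = 0 := by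
  have hev : ∀ i, dd i (tilt a k C) =ᶠ[nhds x] fun y => C * (y i * invLen y ^ 3)
      + ((if i = k then 1 else 0) * (1 - a ^ 3 * invLen y ^ 3)
        + 3 * a ^ 3 * (y k * y i * invLen y ^ 5)) := fun i =>
    Filter.eventually_of_mem (isOpen_punctured.mem_nhds hx) fun y hy => dd_tilt hy k C i
  have d := diffAt_invLen hx
  have e : ∀ i, dd i (dd i (tilt a k C)) x = C * (invLen x ^ 3 - 3 * (x i ^ 2 * invLen x ^ 5))
      + ((if i = k then 1 else 0) * (6 * a ^ 3 * (x i * invLen x ^ 5))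
        + 3 * a ^ 3 * (x k * invLen x ^ 5) - 15 * a ^ 3 * (x k * x i ^ 2 * invLen x ^ 7)) := by
    intro i
    rw [dd_congr (hev i) i]
    have e2 := dd_invLen hx i
    have e3 := dd_coord i i x
    have e4 := dd_coord i k x
    have dk : DifferentiableAt ℝ (fun y : Sp => y k) x := (hasFDerivAt_apply k x).differentiableAt
    have di : DifferentiableAt ℝ (fun y : Sp => y i) x := (hasFDerivAt_apply i x).differentiableAt
    unfold dd at e2 e3 e4 ⊢
    rw [fderiv_fun_add (by fun_prop) (by fun_prop), fderiv_fun_add (by fun_prop) (by fun_prop),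
      fderiv_const_mul (by fun_prop), fderiv_const_mul (by fun_prop), fderiv_const_mul (by fun_prop),
      fderiv_const_sub, fderiv_const_mul (by fun_prop), fderiv_fun_mul di (by fun_prop),
      fderiv_fun_mul (by fun_prop) (by fun_prop), fderiv_fun_mul dk di, fderiv_fun_pow 3 d,
      fderiv_fun_pow 5 d]
    by_cases hik : i = k
    · subst hik; simp [e2, e3]; ring
    · simp [e2, e3, e4, hik]; ring
  have hS : sqLen x * invLen x ^ 2 = 1 := by
    have h := sqLen_pos hx
    simp only [invLen, inv_pow, Real.sq_sqrt h.le]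
    field_simp
  simp only [e, Fin.sum_univ_three]
  simp only [sqLen, Fin.sum_univ_three] at hS
  fin_cases k <;> simp <;>
    first
      | linear_combination (-3 * C * invLen x ^ 3 - 15 * a ^ 3 * x 0 * invLen x ^ 5) * hS
      | linear_combination (-3 * C * invLen x ^ 3 - 15 * a ^ 3 * x 1 * invLen x ^ 5) * hS
      | linear_combination (-3 * C * invLen x ^ 3 - 15 * a ^ 3 * x 2 * invLen x ^ 5) * hS

theorem invLen_of_inner {x : Sp} (ha : 0 < a) (hx : sqLen x = a ^ 2) : invLen x = 1 / a := by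
  rw [invLen, hx, Real.sqrt_sq ha.le, one_div]

theorem rad_inner {x : Sp} (ha : 0 < a) (hx : sqLen x = a ^ 2) : rad a x = 0 := by
  rw [rad, invLen_of_inner ha hx, sub_self]

theorem tilt_inner {x : Sp} (ha : 0 < a) (hx : sqLen x = a ^ 2) (k : Fin 3) (C : ℝ) :
    tilt a k C x = 0 := by
  rw [tilt, rad_inner ha hx, invLen_of_inner ha hx]
  field_simp
  ring

theorem rad_pos {x : Sp} (ha : 0 < a) (hx : a ^ 2 < sqLen x) : 0 < rad a x := by
  have h : a < Real.sqrt (sqLen x) := Real.lt_sqrt_of_sq_lt hx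
  rw [rad, invLen, sub_pos, one_div]
  exact inv_strictAnti₀ ha h

theorem rad_le {x : Sp} (ha : 0 < a) : rad a x ≤ 1 / a :=
  sub_le_self _ (inv_nonneg.2 (Real.sqrt_nonneg _))

theorem rad_grad_pos {x : Sp} (hx : x ≠ 0) : 0 < ∑ i, dd i (rad a) x ^ 2 := by
  simp only [dd_rad hx, mul_pow, ← Finset.sum_mul]
  exact mul_pos (sqLen_pos hx) (pow_pos (pow_pos (inv_pos.2 (Real.sqrt_pos.2 (sqLen_pos hx))) 3) 2)

theorem rad_le_tilt {x : Sp} (ha : 0 < a) (hx : x ∈ shell a b) (hb : 0 < b) (k : Fin 3) :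
    rad a x ≤ tilt a k (3 * a * b + 1) x := by
  set r := Real.sqrt (sqLen x) with hr
  have har : a < r := Real.lt_sqrt_of_sq_lt hx.1
  have hrb : r < b := (Real.sqrt_lt (sqLen_nonneg x) hb.le).2 hx.2
  have hxk : |x k| ≤ r := by
    rw [hr]
    refine Real.abs_le_sqrt ?_
    exact Finset.single_le_sum (f := fun i => x i ^ 2) (fun i _ => sq_nonneg _) (Finset.mem_univ k)
  have hr0 : 0 < r := ha.trans har
  have e1 : x k - a ^ 3 * (x k * invLen x ^ 3) = x k / r ^ 3 * ((r - a) * (r ^ 2 + r * a + a ^ 2)) := by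
    rw [invLen, ← hr]; field_simp; ring
  have e2 : rad a x = (r - a) / (a * r) := by
    rw [rad, invLen, ← hr]; field_simp
  have key : |x k - a ^ 3 * (x k * invLen x ^ 3)| ≤ 3 * a * b * rad a x := by
    rw [e1, e2, abs_mul, abs_div, abs_of_pos (pow_pos hr0 3), abs_mul,
      abs_of_pos (sub_pos.2 har), abs_of_pos (by positivity : (0 : ℝ) < r ^ 2 + r * a + a ^ 2)]
    calc |x k| / r ^ 3 * ((r - a) * (r ^ 2 + r * a + a ^ 2))
          ≤ r / r ^ 3 * ((r - a) * (3 * r ^ 2)) := by
          refine mul_le_mul (by gcongr) (mul_le_mul_of_nonneg_left ?_ (sub_pos.2 har).le)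
            (mul_nonneg (sub_pos.2 har).le (by positivity)) (by positivity)
          nlinarith
      _ = 3 * r * ((r - a) / r) := by field_simp
      _ ≤ 3 * b * ((r - a) / r) := by
          exact mul_le_mul_of_nonneg_right (by linarith) (div_nonneg (sub_pos.2 har).le hr0.le)
      _ = 3 * a * b * ((r - a) / (a * r)) := by field_simp
  have := neg_abs_le (x k - a ^ 3 * (x k * invLen x ^ 3))
  unfold tilt
  nlinarith

end Vale.Agent.P088
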