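import Vale.Agent.P088.Layer

/-! The tangential part of the connection vanishes on the outer sphere (P088). -/

open MeasureTheory Set
open scoped ContDiff Pointwise

namespace Vale.Agent.P088

variable {a b : ℝ} {m : ℕ} {A : Conn m} {sig : Coef}

theorem IsTestFun.of_comp {Ω : Set Sp} {w : Sp → Fin m → ℝ} (hw : IsTest Ω w) (r : Fin m) :
    IsTestFun Ω fun x => w x r := by
  have hs : tsupport (fun x => w x r) ⊆ tsupport w :=
    closure_mono fun x hx hx0 => hx (congrFun hx0 r)
  exact ⟨contDiff_pi.1 hw.1 r, hw.2.1.of_isClosed_subset (isClosed_tsupport _) hs, hs.trans hw.2.2⟩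

/-- In a thin layer the mean of a test function is small compared with that of its gradient. -/
theorem layer_poincare (ha : 0 < a) (hb : 0 < b) {η : ℝ} (hη : 0 < η) (hη4 : η ≤ 1 / 4)
    {w : Sp → ℝ} (hw : IsTestFun (shell a b) w) :
    ∫ x in shell a b, cut b η (sqLen x) * |w x|
      ≤ 2 * η * b * ∫ x in shell a b, cut b η (sqLen x) * ∑ i, |dd i w x| := by
  set Ω := shell a b with hΩ
  have hbd : Bornology.IsBounded Ω := isBounded_shell
  have ho : IsOpen Ω := isOpen_shell
  have hcs := contDiff_sqLen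
  have cm : Continuous fun x => cut b η (sqLen x) := (contDiff_cut b η).continuous.comp hcs.continuous
  refine le_of_forall_pos_le_add fun δ hδ => ?_
  set μ := ∫ x in Ω, cut b η (sqLen x) with hμ
  have hμ0 : 0 ≤ μ := setIntegral_nonneg ho.measurableSet fun x _ => cut_nonneg _ _ _
  set η' := (δ / (μ + 1)) ^ 2 with hη'
  have hη0 : 0 < η' := by positivity
  have hsη : Real.sqrt η' * μ ≤ δ := by
    rw [hη', Real.sqrt_sq (by positivity), div_mul_eq_mul_div, div_le_iff₀ (by positivity)]
    exact mul_le_mul_of_nonneg_left (by linarith) hδ.le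
  set f : Sp → ℝ := fun x => Real.sqrt (w x ^ 2 + η') - Real.sqrt η' with hf
  have hgp : ∀ x, 0 < w x ^ 2 + η' := fun x => by positivity
  have hfc : ContDiff ℝ ∞ f :=
    (((hw.1.pow 2).add contDiff_const).sqrt fun x => (hgp x).ne').sub contDiff_const
  have hsupp : tsupport f ⊆ tsupport w := closure_mono fun x hx hx0 => hx (by simp [hf, hx0])
  have hft : IsTestFun Ω f :=
    ⟨hfc, hw.2.1.of_isClosed_subset (isClosed_tsupport _) hsupp, hsupp.trans hw.2.2⟩
  have hf0 : ∀ x, 0 ≤ f x := fun x =>
    sub_nonneg.2 (Real.sqrt_le_sqrt (by nlinarith [sq_nonneg (w x)]))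
  have hdf : ∀ x i, |dd i f x| ≤ |dd i w x| := by
    intro x i
    have hs := Real.sqrt_pos.2 (hgp x)
    have H := (((hw.1.differentiable (by simp) x).hasFDerivAt.pow 2).add_const η').sqrt (hgp x).ne'
    have e1 : dd i f x = w x * dd i w x / Real.sqrt (w x ^ 2 + η') := by
      unfold dd
      rw [hf, (H.sub_const (Real.sqrt η')).fderiv]
      simp
      field_simp
    rw [e1, abs_div, abs_mul, abs_of_pos hs, div_le_iff₀ hs, mul_comm |dd i w x|]
    exact mul_le_mul_of_nonneg_right (Real.abs_le_sqrt (by linarith)) (abs_nonneg _)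
  set g : Fin 3 → Sp → ℝ := fun i x => depth b η (sqLen x) * x i with hg
  have hgc : ∀ i, ContDiff ℝ ∞ (g i) := fun i =>
    ((contDiff_depth b η).comp hcs).mul (contDiff_apply ℝ ℝ i)
  have iL : IntegrableOn (fun x => b ^ 2 * (cut b η (sqLen x) * f x)) Ω :=
    intOn hbd (continuous_const.mul (cm.mul hfc.continuous)).continuousOn
  have iM : IntegrableOn (fun x => f x * ∑ i, dd i (g i) x) Ω :=
    intOn hbd (hfc.continuous.mul
      (continuous_finsetSum _ fun i _ => (contDiff_dd (hgc i) i).continuous)).continuousOn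
  have iR : IntegrableOn
      (fun x => 2 * η * b ^ 3 * (cut b η (sqLen x) * ∑ i, |dd i w x|)) Ω :=
    intOn hbd (continuous_const.mul (cm.mul
      (continuous_finsetSum _ fun i _ => (contDiff_dd hw.1 i).continuous.abs))).continuousOn
  have iN : IntegrableOn (fun x => -∑ i, dd i f x * g i x) Ω :=
    intOn hbd (continuous_finsetSum _ fun i _ =>
      (contDiff_dd hfc i).continuous.mul (hgc i).continuous).neg.continuousOn
  have k1 : b ^ 2 * ∫ x in Ω, cut b η (sqLen x) * f x ≤ ∫ x in Ω, f x * ∑ i, dd i (g i) x := by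
    rw [← integral_const_mul]
    refine setIntegral_mono_on iL iM ho.measurableSet fun x hx => ?_
    rw [hg, div_depth]
    have hm := cut_nonneg b η (sqLen x)
    have hd := cut_le_deriv_depth hb hη (sqLen x)
    have hp := depth_nonneg hb hη (sqLen x)
    rcases le_or_gt (b ^ 2 / 2) (sqLen x) with h | h
    · nlinarith [mul_le_mul h hd hm (sqLen_nonneg x), hf0 x, mul_nonneg (hf0 x) hp]
    · have hm0 : cut b η (sqLen x) = 0 := cut_eq_zero hb hη (by nlinarith)
      rw [hm0, zero_mul, mul_zero]
      exact mul_nonneg (hf0 x)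
        (by nlinarith [mul_nonneg (sqLen_nonneg x) (hm.trans hd)])
  have k2 : ∫ x in Ω, f x * ∑ i, dd i (g i) x
      ≤ 2 * η * b ^ 3 * ∫ x in Ω, cut b η (sqLen x) * ∑ i, |dd i w x| := by
    have e := div_ibp (b := b) ha hft (g := g) fun i => (hgc i).contDiffOn
    rw [show ∫ x in Ω, f x * ∑ i, dd i (g i) x = ∫ x in Ω, -∑ i, dd i f x * g i x by
      rw [integral_neg]; linarith, ← integral_const_mul]
    refine setIntegral_mono_on iN iR ho.measurableSet fun x hx => ?_
    refine (neg_le_abs _).trans ((Finset.abs_sum_le_sum_abs _ _).trans ?_)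
    rw [Finset.mul_sum, Finset.mul_sum]
    refine Finset.sum_le_sum fun i _ => ?_
    rw [abs_mul]
    have hxi : |x i| ≤ b := by
      have h1 : x i ^ 2 ≤ sqLen x :=
        Finset.single_le_sum (f := fun k => x k ^ 2) (fun k _ => sq_nonneg _) (Finset.mem_univ i)
      exact abs_le_of_sq_le_sq (h1.trans hx.2.le) hb.le
    have hgi : |g i x| ≤ 2 * η * b ^ 3 * cut b η (sqLen x) := by
      rw [hg, abs_mul, abs_of_nonneg (depth_nonneg hb hη _)]
      calc depth b η (sqLen x) * |x i| ≤ 2 * η * b ^ 2 * cut b η (sqLen x) * b :=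
            mul_le_mul (depth_le hx.2.le) hxi (abs_nonneg _)
              (mul_nonneg (by positivity) (cut_nonneg _ _ _))
        _ = _ := by ring
    calc |dd i f x| * |g i x| ≤ |dd i w x| * (2 * η * b ^ 3 * cut b η (sqLen x)) :=
          mul_le_mul (hdf x i) hgi (abs_nonneg _) (abs_nonneg _)
      _ = _ := by ring
  have iA : IntegrableOn (fun x => cut b η (sqLen x) * |w x|) Ω :=
    intOn hbd (cm.mul hw.1.continuous.abs).continuousOn
  have iF : IntegrableOn (fun x => cut b η (sqLen x) * f x) Ω :=
    intOn hbd (cm.mul hfc.continuous).continuousOn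
  have iC : IntegrableOn (fun x => Real.sqrt η' * cut b η (sqLen x)) Ω :=
    intOn hbd (continuous_const.mul cm).continuousOn
  have iS : IntegrableOn
      (fun x => cut b η (sqLen x) * f x + Real.sqrt η' * cut b η (sqLen x)) Ω := iF.add iC
  refine (setIntegral_mono_on iA iS ho.measurableSet fun x _ => ?_).trans ?_
  · have h1 : |w x| ≤ Real.sqrt (w x ^ 2 + η') := Real.abs_le_sqrt (by linarith)
    have := mul_le_mul_of_nonneg_left h1 (cut_nonneg b η (sqLen x))
    simp only [hf]; linarith [mul_comm (cut b η (sqLen x)) (Real.sqrt η')]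
  · rw [integral_add iF iC, integral_const_mul]
    have h3 : b ^ 2 * ∫ x in Ω, cut b η (sqLen x) * f x
        ≤ b ^ 2 * (2 * η * b * ∫ x in Ω, cut b η (sqLen x) * ∑ i, |dd i w x|) :=
      (k1.trans k2).trans (le_of_eq (by ring))
    have := le_of_mul_le_mul_left h3 (by positivity)
    linarith

/-- The tangential component of the connection along the rotation in the `(l, n)` plane. -/
noncomputable def rot (A : Conn m) (l n : Fin 3) (p q : Fin m) (x : Sp) : ℝ :=
  x l * A x n p q - x n * A x l p q

theorem contDiff_rot (hA : IsOrthConn A) (l n : Fin 3) (p q : Fin m) :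
    ContDiff ℝ ∞ (rot A l n p q) :=
  ((contDiff_apply ℝ ℝ l).mul (hA.1 n p q)).sub ((contDiff_apply ℝ ℝ n).mul (hA.1 l p q))

/-- The sum of the absolute values of the covariant derivatives. -/
noncomputable def absGrad (A : Conn m) (z : Sp → Fin m → ℝ) (x : Sp) : ℝ :=
  ∑ i, ∑ s, |covD A z x i s|

/-- The distance of a field from a constant vector. -/
noncomputable def absGap (e : Fin m → ℝ) (z : Sp → Fin m → ℝ) (x : Sp) : ℝ :=
  ∑ s, |z x s - e s|

theorem continuous_absGrad (hA : IsOrthConn A) {z : Sp → Fin m → ℝ} (hz : ContDiff ℝ ∞ z) :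
    Continuous (absGrad A z) :=
  continuous_finsetSum _ fun i _ => continuous_finsetSum _ fun s _ =>
    (contDiff_covD hA hz i s).continuous.abs

theorem continuous_absGap (e : Fin m → ℝ) {z : Sp → Fin m → ℝ} (hz : ContDiff ℝ ∞ z) :
    Continuous (absGap e z) :=
  continuous_finsetSum _ fun s _ => ((contDiff_pi.1 hz s).continuous.sub continuous_const).abs

theorem intCut {η : ℝ} {f : Sp → ℝ} (hf : Continuous f) :
    IntegrableOn (fun x => cut b η (sqLen x) * f x) (shell a b) :=
  intOn isBounded_shell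
    (((contDiff_cut b η).continuous.comp contDiff_sqLen.continuous).mul hf).continuousOn

theorem intCutOne {η : ℝ} : IntegrableOn (fun x => cut b η (sqLen x)) (shell a b) :=
  intOn isBounded_shell
    ((contDiff_cut b η).continuous.comp contDiff_sqLen.continuous).continuousOn

theorem abs_le_add_sq_div {θ : ℝ} (hθ : 0 < θ) (t : ℝ) : |t| ≤ θ + t ^ 2 / θ := by
  have e : θ + t ^ 2 / θ - |t| = ((|t| - θ / 2) ^ 2 + 3 / 4 * θ ^ 2) / θ := by
    rw [← sq_abs t]; field_simp; ring
  have : 0 ≤ ((|t| - θ / 2) ^ 2 + 3 / 4 * θ ^ 2) / θ := by positivity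
  linarith

theorem layer_grad (ha : 0 < a) (hb : 0 < b) (hA : IsOrthConn A) {η θ c0 : ℝ} (hη : 0 < η)
    (hθ : 0 < θ) (hc0 : 0 < c0)
    (hc : ∀ x ∈ shell a b, b ^ 2 * (1 - 2 * η) < sqLen x → c0 ≤ rad a x ^ 2)
    {z : Sp → Fin m → ℝ} (hz : ContDiff ℝ ∞ z)
    (hE : ∫ x in shell a b, rad a x ^ 2 * ∑ i, ∑ p, covD A z x i p ^ 2 ≤ θ ^ 2) :
    ∫ x in shell a b, cut b η (sqLen x) * absGrad A z x
      ≤ (3 * (m : ℝ) + 1) * ((∫ x in shell a b, cut b η (sqLen x)) + 1 / c0) * θ := by
  set N := 3 * (m : ℝ) + 1 with hN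
  have hN1 : 1 ≤ N := by linarith [Nat.cast_nonneg (α := ℝ) m]
  have j1 : IntegrableOn (fun x => N * θ * cut b η (sqLen x)) (shell a b) := intCutOne.const_mul _
  have j2 : IntegrableOn
      (fun x => N / c0 / θ * (rad a x ^ 2 * ∑ i, ∑ p, covD A z x i p ^ 2)) (shell a b) :=
    (intOn isBounded_shell (continuousOn_grad_sq ha hA hz)).const_mul _
  have j12 : IntegrableOn (fun x => N * θ * cut b η (sqLen x)
      + N / c0 / θ * (rad a x ^ 2 * ∑ i, ∑ p, covD A z x i p ^ 2)) (shell a b) := j1.add j2
  refine (setIntegral_mono_on (intCut (continuous_absGrad hA hz)) j12 isOpen_shell.measurableSet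
    fun x hx => ?_).trans ?_
  · have hm0 := cut_nonneg b η (sqLen x)
    have hS0 : 0 ≤ ∑ i, ∑ p, covD A z x i p ^ 2 := by positivity
    rcases le_or_gt (sqLen x) (b ^ 2 * (1 - 2 * η)) with h | h
    · rw [cut_eq_zero hb hη h, zero_mul, mul_zero, zero_add]; positivity
    have hcr := hc x hx h
    have hX1 : absGrad A z x ≤ 3 * m * θ + (∑ i, ∑ p, covD A z x i p ^ 2) / θ := by
      refine (Finset.sum_le_sum fun i _ => Finset.sum_le_sum fun s _ =>
        abs_le_add_sq_div hθ (covD A z x i s)).trans (le_of_eq ?_)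
      simp [Finset.sum_add_distrib, Finset.sum_div]
      ring
    set S := ∑ i, ∑ p, covD A z x i p ^ 2 with hS
    have h3 : S / θ ≤ N / c0 / θ * (rad a x ^ 2 * S) := by
      rw [div_mul_eq_mul_div]
      refine div_le_div_of_nonneg_right ?_ hθ.le
      rw [div_mul_eq_mul_div, le_div_iff₀ hc0]
      nlinarith [mul_le_mul hN1 (mul_le_mul_of_nonneg_right hcr hS0) (by positivity) (by positivity)]
    calc cut b η (sqLen x) * absGrad A z x
          ≤ cut b η (sqLen x) * (3 * m * θ + S / θ) := mul_le_mul_of_nonneg_left hX1 hm0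
      _ ≤ N * θ * cut b η (sqLen x) + 1 * (S / θ) := by
          rw [mul_add]
          refine add_le_add ?_ (mul_le_mul_of_nonneg_right (cut_le_one b η _) (div_nonneg hS0 hθ.le))
          rw [hN]
          nlinarith [mul_nonneg hθ.le hm0]
      _ ≤ _ := by rw [one_mul]; exact add_le_add le_rfl h3
  · rw [integral_add j1 j2, integral_const_mul, integral_const_mul]
    have h1 := mul_le_mul_of_nonneg_left hE (by positivity : 0 ≤ N / c0 / θ)
    have h2 : N / c0 / θ * θ ^ 2 = N * (1 / c0) * θ := by field_simp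
    linarith

theorem dd_gap (z : Sp → Fin m → ℝ) (e : Fin m → ℝ) (x : Sp) (i : Fin 3) (s : Fin m) :
    dd i (fun y => z y s - e s) x = covD A z x i s - ∑ r, A x i s r * z x r := by
  have : dd i (fun y => z y s - e s) x = dd i (fun y => z y s) x := by
    unfold dd; rw [fderiv_sub_const]
  rw [this, covD]; ring

theorem layer_frame (ha : 0 < a) (hb : 0 < b) (hA : IsOrthConn A) {η M : ℝ} (hη : 0 < η)
    (hη4 : η ≤ 1 / 4) (hM0 : 0 ≤ M) (hM : ∀ x ∈ shell a b, ∀ i r s, |A x i r s| ≤ M)
    (hηM : η * (4 * b * (3 * M * m + 1)) ≤ 1) (e : Fin m → ℝ) (he : ∑ s, |e s| ≤ 1)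
    {z : Sp → Fin m → ℝ} (hz : ContDiff ℝ ∞ z) (hzt : IsTest (shell a b) fun x p => z x p - e p) :
    ∫ x in shell a b, cut b η (sqLen x) * absGap e z x
      ≤ 4 * η * b * (3 * M * m + 1) * ((∫ x in shell a b, cut b η (sqLen x) * absGrad A z x)
          + ∫ x in shell a b, cut b η (sqLen x)) := by
  set Ω := shell a b with hΩ
  have hwt : ∀ s, IsTestFun Ω (fun x => z x s - e s) := fun s => IsTestFun.of_comp hzt s
  have cD : Continuous fun x => ∑ s, ∑ i, |dd i (fun y => z y s - e s) x| :=
    continuous_finsetSum _ fun s _ => continuous_finsetSum _ fun i _ =>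
      (contDiff_dd (hwt s).1 i).continuous.abs
  have i1 : ∀ s, IntegrableOn (fun x => cut b η (sqLen x) * |z x s - e s|) Ω := fun s =>
    intCut (hwt s).1.continuous.abs
  have i2 : ∀ s, IntegrableOn
      (fun x => cut b η (sqLen x) * ∑ i, |dd i (fun y => z y s - e s) x|) Ω := fun s =>
    intCut (continuous_finsetSum _ fun i _ => (contDiff_dd (hwt s).1 i).continuous.abs)
  have step : ∫ x in Ω, cut b η (sqLen x) * absGap e z x
      ≤ 2 * η * b * ∫ x in Ω, cut b η (sqLen x) * ∑ s, ∑ i, |dd i (fun y => z y s - e s) x| := by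
    have eW : (fun x => cut b η (sqLen x) * absGap e z x)
        = fun x => ∑ s, cut b η (sqLen x) * |z x s - e s| :=
      funext fun x => Finset.mul_sum _ _ _
    have eD : (fun x => cut b η (sqLen x) * ∑ s, ∑ i, |dd i (fun y => z y s - e s) x|)
        = fun x => ∑ s, cut b η (sqLen x) * ∑ i, |dd i (fun y => z y s - e s) x| :=
      funext fun x => Finset.mul_sum _ _ _
    rw [eW, eD, integral_finsetSum _ fun s _ => i1 s, integral_finsetSum _ fun s _ => i2 s,
      Finset.mul_sum]
    exact Finset.sum_le_sum fun s _ => layer_poincare ha hb hη hη4 (hwt s)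
  set R := 3 * M * (m : ℝ) with hR
  have hR0 : 0 ≤ R := by positivity
  have iX : IntegrableOn (fun x => cut b η (sqLen x) * absGrad A z x) Ω :=
    intCut (continuous_absGrad hA hz)
  have iW : IntegrableOn (fun x => cut b η (sqLen x) * absGap e z x) Ω :=
    intCut (continuous_absGap e hz)
  have j1 : IntegrableOn (fun x => R * (cut b η (sqLen x) * absGap e z x)) Ω := iW.const_mul _
  have j2 : IntegrableOn (fun x => R * cut b η (sqLen x)) Ω := intCutOne.const_mul _
  have j12 : IntegrableOn (fun x => cut b η (sqLen x) * absGrad A z x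
      + R * (cut b η (sqLen x) * absGap e z x)) Ω := iX.add j1
  have j123 : IntegrableOn (fun x => cut b η (sqLen x) * absGrad A z x
      + R * (cut b η (sqLen x) * absGap e z x) + R * cut b η (sqLen x)) Ω := j12.add j2
  have bd : ∫ x in Ω, cut b η (sqLen x) * ∑ s, ∑ i, |dd i (fun y => z y s - e s) x|
      ≤ (∫ x in Ω, cut b η (sqLen x) * absGrad A z x)
        + R * (∫ x in Ω, cut b η (sqLen x) * absGap e z x) + R * ∫ x in Ω, cut b η (sqLen x) := by
    refine (setIntegral_mono_on (intCut cD) j123 isOpen_shell.measurableSet fun x hx => ?_).trans ?_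
    · have hb1 : ∀ s i, |dd i (fun y => z y s - e s) x|
          ≤ |covD A z x i s| + M * (absGap e z x + 1) := by
        intro s i
        rw [dd_gap (A := A)]
        refine (abs_sub _ _).trans (add_le_add le_rfl ?_)
        calc |∑ r, A x i s r * z x r| ≤ ∑ r, M * (|z x r - e r| + |e r|) :=
              (Finset.abs_sum_le_sum_abs _ _).trans (Finset.sum_le_sum fun r _ => by
                rw [abs_mul]
                refine mul_le_mul (hM x hx i s r) ?_ (abs_nonneg _) hM0
                simpa using abs_add_le (z x r - e r) (e r))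
          _ ≤ M * (absGap e z x + 1) := by
              rw [← Finset.mul_sum, Finset.sum_add_distrib]
              exact mul_le_mul_of_nonneg_left (add_le_add le_rfl he) hM0
      calc cut b η (sqLen x) * ∑ s, ∑ i, |dd i (fun y => z y s - e s) x|
            ≤ cut b η (sqLen x) * ∑ s : Fin m, ∑ i, (|covD A z x i s| + M * (absGap e z x + 1)) :=
            mul_le_mul_of_nonneg_left
              (Finset.sum_le_sum fun s _ => Finset.sum_le_sum fun i _ => hb1 s i) (cut_nonneg _ _ _)
        _ = _ := by
            simp only [absGrad, Finset.sum_add_distrib, Finset.sum_const, Finset.card_univ,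
              Fintype.card_fin, nsmul_eq_mul, hR]
            rw [Finset.sum_comm]
            push_cast
            ring
    · rw [integral_add j12 j2, integral_add iX j1, integral_const_mul, integral_const_mul]
  have hIW : 0 ≤ ∫ x in Ω, cut b η (sqLen x) * absGap e z x :=
    setIntegral_nonneg isOpen_shell.measurableSet fun x _ =>
      mul_nonneg (cut_nonneg _ _ _) (Finset.sum_nonneg fun _ _ => abs_nonneg _)
  have hIX : 0 ≤ ∫ x in Ω, cut b η (sqLen x) * absGrad A z x :=
    setIntegral_nonneg isOpen_shell.measurableSet fun x _ =>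
      mul_nonneg (cut_nonneg _ _ _)
        (Finset.sum_nonneg fun _ _ => Finset.sum_nonneg fun _ _ => abs_nonneg _)
  have hμ0 : 0 ≤ ∫ x in Ω, cut b η (sqLen x) :=
    setIntegral_nonneg isOpen_shell.measurableSet fun x _ => cut_nonneg _ _ _
  have h2 : 0 ≤ 2 * η * b := by positivity
  have hc2 : 2 * η * b * R ≤ 1 / 2 := by
    have := mul_nonneg hη.le hb.le
    linarith
  have h4 := step.trans (mul_le_mul_of_nonneg_left bd h2)
  have h5 := mul_le_mul_of_nonneg_right hc2 hIW
  have h6 := mul_nonneg (mul_nonneg h2 hR0) hIX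
  have h7 := mul_nonneg h2 hμ0
  linarith

/-- The rotation field in the `(l, n)` plane. -/
def rotVec (l n k : Fin 3) (x : Sp) : ℝ :=
  (if k = n then x l else 0) - (if k = l then x n else 0)

theorem contDiff_rotVec (l n k : Fin 3) : ContDiff ℝ ∞ (rotVec l n k) := by
  refine ContDiff.sub ?_ ?_ <;> split_ifs
  exacts [contDiff_apply ℝ ℝ l, contDiff_const, contDiff_apply ℝ ℝ n, contDiff_const]

theorem dd_rotVec (l n k : Fin 3) (x : Sp) : dd k (rotVec l n k) x = 0 := by
  have e : rotVec l n k = fun y : Sp =>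
      (if k = n then y l else 0) - (if k = l then y n else 0) := rfl
  rw [e]
  have d1 : dd k (fun y : Sp => y l) x = if k = l then 1 else 0 := dd_coord k l x
  have d2 : dd k (fun y : Sp => y n) x = if k = n then 1 else 0 := dd_coord k n x
  unfold dd at d1 d2 ⊢
  split_ifs with h1 h2 h2
  · subst h1; subst h2; simp
  · rw [if_neg h2] at d1
    simpa using d1
  · rw [if_neg h1] at d2
    simp [d2]
  · simp

theorem div_rot_cut {α : Sp → ℝ} (hα : ContDiff ℝ ∞ α) (η : ℝ) (l n : Fin 3) (x : Sp) :
    ∑ k, dd k (fun y => cut b η (sqLen y) * α y * rotVec l n k y) x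
      = cut b η (sqLen x) * (x l * dd n α x - x n * dd l α x) := by
  have dc : DifferentiableAt ℝ (fun y => cut b η (sqLen y)) x :=
    ((contDiff_cut b η).comp contDiff_sqLen).differentiable (by simp) x
  have dα : DifferentiableAt ℝ α x := hα.differentiable (by simp) x
  have e : ∀ k, dd k (fun y => cut b η (sqLen y) * α y * rotVec l n k y) x
      = (deriv (cut b η) (sqLen x) * (2 * x k) * α x + cut b η (sqLen x) * dd k α x)
        * rotVec l n k x := by
    intro k
    rw [dd_mul (dc.fun_mul dα) ((contDiff_rotVec l n k).differentiable (by simp) x),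
      dd_mul dc dα, dd_rotVec,
      dd_comp ((contDiff_cut b η).differentiable (by simp) _)
        (contDiff_sqLen.differentiable (by simp) x), dd_sqLen]
    ring
  rw [Finset.sum_congr rfl fun k _ => e k]
  simp only [rotVec, mul_sub, mul_ite, mul_zero, Finset.sum_sub_distrib, Finset.sum_ite_eq',
    Finset.mem_univ, if_true]
  ring

theorem pair_rot_cut (η : ℝ) (l n : Fin 3) (p q : Fin m) (z : Sp → Fin m → ℝ) (x : Sp) :
    ∑ k, dd k (fun y => z y p - if p = q then 1 else 0) x
        * (cut b η (sqLen x) * rot A l n p q x * rotVec l n k x)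
      = cut b η (sqLen x) * rot A l n p q x * (x l * covD A z x n p - x n * covD A z x l p)
        - cut b η (sqLen x) * rot A l n p q x
          * ∑ s, rot A l n p s x * (z x s - if s = q then 1 else 0)
        - cut b η (sqLen x) * rot A l n p q x ^ 2 := by
  have e1 : ∀ k, dd k (fun y => z y p - if p = q then (1 : ℝ) else 0) x
      = covD A z x k p - ((∑ r, A x k p r * (z x r - if r = q then 1 else 0)) + A x k p q) := by
    intro k
    rw [dd_gap (A := A) z (fun s => if s = q then (1 : ℝ) else 0) x k p]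
    congr 1
    simp [mul_sub, Finset.sum_sub_distrib]
  simp only [e1, rotVec, mul_sub, mul_ite, mul_zero, Finset.sum_sub_distrib, Finset.sum_ite_eq',
    Finset.mem_univ, if_true]
  simp only [rot, sub_mul, mul_sub, mul_ite, mul_one, mul_zero, Finset.sum_sub_distrib,
    Finset.sum_ite_eq', Finset.mem_univ, if_true, mul_assoc, ← Finset.mul_sum]
  ring

theorem rot_mean_le (ha : 0 < a) (hA : IsOrthConn A) {η M : ℝ} (hM0 : 0 ≤ M) (l n : Fin 3)
    (p q : Fin m)
    (hM : ∀ x ∈ shell a b, |rot A l n p q x| * (1 + 2 * b) ≤ M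
      ∧ |x l * dd n (rot A l n p q) x| + |x n * dd l (rot A l n p q) x| ≤ M
      ∧ ∀ s, |rot A l n p s x| ≤ M)
    (hb : 0 < b) {z : Sp → Fin m → ℝ} (hz : ContDiff ℝ ∞ z)
    (hzt : IsTest (shell a b) fun x s => z x s - if s = q then 1 else 0) :
    ∫ x in shell a b, cut b η (sqLen x) * rot A l n p q x ^ 2
      ≤ M * (∫ x in shell a b, cut b η (sqLen x) * absGrad A z x)
        + (M + M ^ 2) * ∫ x in shell a b,
            cut b η (sqLen x) * absGap (fun s => if s = q then 1 else 0) z x := by
  set Ω := shell a b with hΩ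
  have hbd : Bornology.IsBounded Ω := isBounded_shell
  set α := rot A l n p q with hα
  have hαc : ContDiff ℝ ∞ α := contDiff_rot hA l n p q
  set w : Sp → ℝ := fun y => z y p - if p = q then 1 else 0 with hw
  have hwt : IsTestFun Ω w := IsTestFun.of_comp hzt p
  set g : Fin 3 → Sp → ℝ := fun k x => cut b η (sqLen x) * α x * rotVec l n k x with hg
  have hgc : ∀ k, ContDiff ℝ ∞ (g k) := fun k =>
    (((contDiff_cut b η).comp contDiff_sqLen).mul hαc).mul (contDiff_rotVec l n k)
  set W := absGap (fun s => if s = q then (1 : ℝ) else 0) z with hW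
  have iI : IntegrableOn (fun x => cut b η (sqLen x) * α x ^ 2) Ω := intCut (hαc.continuous.pow 2)
  have iL : IntegrableOn (fun x => ∑ k, dd k w x * g k x) Ω :=
    intOn hbd (continuous_finsetSum _ fun k _ =>
      (contDiff_dd hwt.1 k).continuous.mul (hgc k).continuous).continuousOn
  have iR : IntegrableOn (fun x => w x * ∑ k, dd k (g k) x) Ω :=
    intOn hbd (hwt.1.continuous.mul
      (continuous_finsetSum _ fun k _ => (contDiff_dd (hgc k) k).continuous)).continuousOn
  have iX : IntegrableOn (fun x => cut b η (sqLen x) * absGrad A z x) Ω :=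
    intCut (continuous_absGrad hA hz)
  have iW : IntegrableOn (fun x => cut b η (sqLen x) * W x) Ω := intCut (continuous_absGap _ hz)
  have j1 : IntegrableOn (fun x => M * (cut b η (sqLen x) * absGrad A z x)) Ω := iX.const_mul _
  have j2 : IntegrableOn (fun x => (M + M ^ 2) * (cut b η (sqLen x) * W x)) Ω := iW.const_mul _
  have iS : IntegrableOn (fun x => cut b η (sqLen x) * α x ^ 2 + ∑ k, dd k w x * g k x) Ω :=
    iI.add iL
  have iT : IntegrableOn (fun x => cut b η (sqLen x) * α x ^ 2 + (∑ k, dd k w x * g k x)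
      + w x * ∑ k, dd k (g k) x) Ω := iS.add iR
  have iU : IntegrableOn (fun x => M * (cut b η (sqLen x) * absGrad A z x)
      + (M + M ^ 2) * (cut b η (sqLen x) * W x)) Ω := j1.add j2
  have e := div_ibp (b := b) ha hwt (g := g) fun k => (hgc k).contDiffOn
  have h := setIntegral_mono_on iT iU isOpen_shell.measurableSet fun x hx => by
    obtain ⟨b1, b2, b4⟩ := hM x hx
    have hm0 := cut_nonneg b η (sqLen x)
    have hxi : ∀ i, |x i| ≤ b := fun i => abs_le_of_sq_le_sq
      ((Finset.single_le_sum (f := fun k => x k ^ 2) (fun k _ => sq_nonneg _)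
        (Finset.mem_univ i)).trans hx.2.le) hb.le
    have hXk : ∀ i, |covD A z x i p| ≤ absGrad A z x := fun i =>
      (abs_le_sum_abs (fun s => covD A z x i s) (Finset.mem_univ p)).trans
        (Finset.single_le_sum (f := fun i => ∑ s, |covD A z x i s|)
          (fun i _ => Finset.sum_nonneg fun _ _ => abs_nonneg _) (Finset.mem_univ i))
    have hX0 : 0 ≤ absGrad A z x := (abs_nonneg _).trans (hXk l)
    have hW0 : 0 ≤ W x := Finset.sum_nonneg fun _ _ => abs_nonneg _
    have hαM : |α x| ≤ M := by nlinarith [abs_nonneg (α x)]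
    have t1 : α x * (x l * covD A z x n p - x n * covD A z x l p) ≤ M * absGrad A z x := by
      refine (le_abs_self _).trans ?_
      rw [abs_mul]
      calc |α x| * |x l * covD A z x n p - x n * covD A z x l p|
            ≤ |α x| * ((1 + 2 * b) * absGrad A z x) := by
            refine mul_le_mul_of_nonneg_left ((abs_sub _ _).trans ?_) (abs_nonneg _)
            rw [abs_mul, abs_mul]
            have q1 := mul_le_mul (hxi l) (hXk n) (abs_nonneg _) hb.le
            have q2 := mul_le_mul (hxi n) (hXk l) (abs_nonneg _) hb.le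
            linarith
        _ ≤ M * absGrad A z x := by rw [← mul_assoc]; exact mul_le_mul_of_nonneg_right b1 hX0
    have t2 : -(α x * ∑ s, rot A l n p s x * (z x s - if s = q then 1 else 0)) ≤ M ^ 2 * W x := by
      refine (neg_le_abs _).trans ?_
      rw [abs_mul, sq, mul_assoc]
      refine mul_le_mul hαM ?_ (abs_nonneg _) hM0
      rw [hW, absGap, Finset.mul_sum]
      exact (Finset.abs_sum_le_sum_abs _ _).trans (Finset.sum_le_sum fun s _ => by
        rw [abs_mul]; exact mul_le_mul_of_nonneg_right (b4 s) (abs_nonneg _))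
    have t3 : w x * (x l * dd n α x - x n * dd l α x) ≤ M * W x := by
      refine (le_abs_self _).trans ?_
      rw [abs_mul, mul_comm M]
      exact mul_le_mul (abs_le_sum_abs (fun s => z x s - if s = q then 1 else 0) (Finset.mem_univ p))
        ((abs_sub _ _).trans b2) (abs_nonneg _) hW0
    simp only [hg, hw]
    rw [pair_rot_cut, div_rot_cut hαc]
    have q1 := mul_le_mul_of_nonneg_left t1 hm0
    have q2 := mul_le_mul_of_nonneg_left t2 hm0
    have q3 := mul_le_mul_of_nonneg_left t3 hm0
    simp only [hw] at q3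
    linarith
  rw [integral_add iS iR, integral_add iI iL, integral_add j1 j2, integral_const_mul,
    integral_const_mul] at h
  linarith

/-- The tangential component is small in the layer mean. -/
theorem exists_rot_bound (ha : 0 < a) (hab : a < b) (hA : IsOrthConn A) (hs : AboveEuclid a b sig)
    (hS : SameOuterData a b euclid (0 : Conn m) sig A) (l n : Fin 3) (p q : Fin m) :
    ∃ η₁ C, 0 < η₁ ∧ 0 ≤ C ∧ ∀ η, 0 < η → η ≤ η₁ →
      ∫ x in shell a b, cut b η (sqLen x) * rot A l n p q x ^ 2
        ≤ C * η * ∫ x in shell a b, cut b η (sqLen x) := by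
  have hb : 0 < b := ha.trans hab
  have hαc : ContDiff ℝ ∞ (rot A l n p q) := contDiff_rot hA l n p q
  set r0 := Real.sqrt ((a ^ 2 + b ^ 2) / 2) with hr0
  have hab2 : 0 < b ^ 2 - a ^ 2 := by
    have := pow_lt_pow_left₀ hab ha.le two_ne_zero
    linarith
  have har0 : a < r0 := Real.lt_sqrt_of_sq_lt (by linarith)
  have hr00 : 0 < r0 := ha.trans har0
  set c0 := (1 / a - 1 / r0) ^ 2 with hc0
  have hc00 : 0 < c0 := pow_pos (sub_pos.2 (one_div_lt_one_div_of_lt ha har0)) 2
  obtain ⟨M₁, hM₁0, hM₁⟩ := exists_max (a := a) (b := b)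
    (f := fun x => |rot A l n p q x| * (1 + 2 * b)
      + (|x l * dd n (rot A l n p q) x| + |x n * dd l (rot A l n p q) x|)
      + ∑ s, |rot A l n p s x|)
    (((hαc.continuous.abs.mul continuous_const).add
      (((continuous_apply l).mul (contDiff_dd hαc n).continuous).abs.add
        ((continuous_apply n).mul (contDiff_dd hαc l).continuous).abs)).add
      (continuous_finsetSum _ fun s _ => (contDiff_rot hA l n p s).continuous.abs)).continuousOn
  obtain ⟨M₂, hM₂0, hM₂⟩ := exists_max (a := a) (b := b)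
    (f := fun x => ∑ i, ∑ r, ∑ s, |A x i r s|)
    (continuous_finsetSum _ fun i _ => continuous_finsetSum _ fun r _ =>
      continuous_finsetSum _ fun s _ => (hA.1 i r s).continuous.abs).continuousOn
  set M := M₁ + M₂ with hMdef
  have hM0 : 0 ≤ M := by linarith
  have hMA : ∀ x ∈ shell a b, ∀ i r s, |A x i r s| ≤ M := by
    intro x hx i r s
    have h := (le_abs_self _).trans (hM₂ x hx)
    have h1 := abs_le_sum_abs (fun s => A x i r s) (Finset.mem_univ s)
    have h2 := Finset.single_le_sum (f := fun r => ∑ s, |A x i r s|)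
      (fun _ _ => Finset.sum_nonneg fun _ _ => abs_nonneg _) (Finset.mem_univ r)
    have h3 := Finset.single_le_sum (f := fun i => ∑ r, ∑ s, |A x i r s|)
      (fun i _ => Finset.sum_nonneg fun _ _ => Finset.sum_nonneg fun _ _ => abs_nonneg _)
      (Finset.mem_univ i)
    linarith
  have hMr : ∀ x ∈ shell a b, |rot A l n p q x| * (1 + 2 * b) ≤ M
      ∧ |x l * dd n (rot A l n p q) x| + |x n * dd l (rot A l n p q) x| ≤ M
      ∧ ∀ s, |rot A l n p s x| ≤ M := by
    intro x hx
    have h := (le_abs_self _).trans (hM₁ x hx)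
    have n1 : 0 ≤ |rot A l n p q x| * (1 + 2 * b) := by positivity
    have n2 : 0 ≤ |x l * dd n (rot A l n p q) x| + |x n * dd l (rot A l n p q) x| := by positivity
    have n3 : 0 ≤ ∑ s, |rot A l n p s x| := Finset.sum_nonneg fun _ _ => abs_nonneg _
    exact ⟨by linarith, by linarith, fun s => by
      linarith [abs_le_sum_abs (fun s => rot A l n p s x) (Finset.mem_univ s)]⟩
  set R := 4 * b * (3 * M * m + 1) with hR
  have hR0 : 0 < R := by positivity
  set η₁ := min (min (1 / 4) ((b ^ 2 - a ^ 2) / (4 * b ^ 2))) (1 / R) with hη₁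
  have hη₁0 : 0 < η₁ := lt_min (lt_min (by norm_num) (div_pos hab2 (by positivity))) (by positivity)
  refine ⟨η₁, (M + M ^ 2) * R, hη₁0, by positivity, fun η hη hηle => ?_⟩
  have hη4 : η ≤ 1 / 4 := hηle.trans ((min_le_left _ _).trans (min_le_left _ _))
  have hηab : η * (4 * b ^ 2) ≤ b ^ 2 - a ^ 2 :=
    (le_div_iff₀ (by positivity)).1 (hηle.trans ((min_le_left _ _).trans (min_le_right _ _)))
  have hηR : η * R ≤ 1 := (le_div_iff₀ hR0).1 (hηle.trans (min_le_right _ _))
  set μ := ∫ x in shell a b, cut b η (sqLen x) with hμ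
  have hμ0 : 0 ≤ μ := setIntegral_nonneg isOpen_shell.measurableSet fun x _ => cut_nonneg _ _ _
  refine le_of_forall_pos_le_add fun δ hδ => ?_
  set D := (M + (M + M ^ 2) * (η * R)) * ((3 * (m : ℝ) + 1) * (μ + 1 / c0)) with hD
  have hD0 : 0 ≤ D := by positivity
  set θ := δ / (D + 1) with hθdef
  have hθ : 0 < θ := by positivity
  have hθD : D * θ ≤ δ := by
    rw [hθdef, mul_div_assoc', div_le_iff₀ (by positivity), mul_add, mul_one, mul_comm δ D]
    linarith
  obtain ⟨z, hzc, hzt, hE⟩ :=
    exists_frame_seq (b := b) ha hA hs hS (fun s : Fin m => if s = q then (1 : ℝ) else 0) hθ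
  have hX := layer_grad ha hb hA hη hθ hc00 (fun x _ hlo => by
    have hr : r0 ≤ Real.sqrt (sqLen x) := Real.sqrt_le_sqrt (by linarith)
    rw [hc0, rad, invLen, ← one_div (Real.sqrt _)]
    exact pow_le_pow_left₀ (sub_nonneg.2 (one_div_le_one_div_of_le ha har0.le))
      (by linarith [one_div_le_one_div_of_le hr00 hr]) 2) hzc hE
  have hW := layer_frame ha hb hA hη hη4 hM0 hMA hηR (fun s : Fin m => if s = q then (1 : ℝ) else 0)
    (by simp [apply_ite abs]) hzc hzt
  have hI := rot_mean_le (η := η) ha hA hM0 l n p q hMr hb hzc hzt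
  have e1 : 4 * η * b * (3 * M * (m : ℝ) + 1) = η * R := by rw [hR]; ring
  rw [e1] at hW
  have h1 := mul_le_mul_of_nonneg_left hW (by positivity : 0 ≤ M + M ^ 2)
  have h2 := mul_le_mul_of_nonneg_left hX (by positivity : 0 ≤ M + (M + M ^ 2) * (η * R))
  have e2 : (M + (M + M ^ 2) * (η * R)) * ((3 * (m : ℝ) + 1) * (μ + 1 / c0) * θ) = D * θ := by
    rw [hD]; ring
  linarith

set_option maxHeartbeats 2000000 in
/-- The tangential part of the connection vanishes on the outer sphere. -/
theorem rot_eq_zero (ha : 0 < a) (hab : a < b) (hA : IsOrthConn A) (hs : AboveEuclid a b sig)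
    (hS : SameOuterData a b euclid (0 : Conn m) sig A) (l n : Fin 3) (p q : Fin m) {x₀ : Sp}
    (hx₀ : sqLen x₀ = b ^ 2) : rot A l n p q x₀ = 0 := by
  by_contra hne
  have hb : 0 < b := ha.trans hab
  set Ω := shell a b with hΩ
  have ho : IsOpen Ω := isOpen_shell
  have hbd : Bornology.IsBounded Ω := isBounded_shell
  set α := rot A l n p q with hα
  have hαc : Continuous α := (contDiff_rot hA l n p q).continuous
  obtain ⟨η₁, K, hη₁, hK0, hK⟩ := exists_rot_bound ha hab hA hs hS l n p q
  set c := α x₀ ^ 2 / 2 with hc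
  have hc0 : 0 < c := by
    have := pow_two_pos_of_ne_zero hne
    linarith
  obtain ⟨δ, hδ, hball⟩ := Metric.eventually_nhds_iff.1
    (((hαc.pow 2).tendsto x₀).eventually (Ioi_mem_nhds (show c < α x₀ ^ 2 by linarith)))
  set P : Sp → Sp := fun x => (b * invLen x) • x with hP
  have hPc : ContinuousOn P ({0}ᶜ : Set Sp) :=
    (continuousOn_const.mul contDiffOn_invLen.continuousOn).smul continuousOn_id
  set C : Set Sp := ({0}ᶜ : Set Sp) ∩ P ⁻¹' Metric.ball x₀ (δ / 2) with hC
  have hCo : IsOpen C := hPc.isOpen_inter_preimage isOpen_punctured Metric.isOpen_ball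
  have hcone : ∀ x, ∀ t : ℝ, 0 < t → x ∈ C → t • x ∈ C := by
    rintro x t ht ⟨h1, h2⟩
    refine ⟨smul_ne_zero ht.ne' h1, ?_⟩
    have e : P (t • x) = P x := by
      simp only [hP, invLen_smul ht, smul_smul]
      congr 1
      field_simp
    rw [mem_preimage, e]; exact h2
  have hcone' : ∀ x, ∀ t : ℝ, 0 < t → x ∈ ({0}ᶜ : Set Sp) → t • x ∈ ({0}ᶜ : Set Sp) :=
    fun x t ht hx => smul_ne_zero ht.ne' hx
  set V0 := volume.real (coneBall C b) with hV0
  set V1 := volume.real (coneBall ({0}ᶜ : Set Sp) b) with hV1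
  have hV0pos : 0 < V0 := by
    have hopen : IsOpen (coneBall C b) :=
      hCo.inter (isOpen_lt contDiff_sqLen.continuous continuous_const)
    refine ENNReal.toReal_pos (hopen.measure_pos volume ⟨(1 / 2 : ℝ) • x₀, hcone x₀ _ (by norm_num)
      ⟨ne_zero_of_sqLen (by rw [hx₀]; positivity), ?_⟩, ?_⟩).ne'
      (isBounded_coneBall C b).measure_lt_top.ne
    · have e : invLen x₀ = 1 / b := invLen_of_inner hb hx₀
      have : P x₀ = x₀ := by simp [hP, e, hb.ne']
      rw [mem_preimage, this]; exact Metric.mem_ball_self (half_pos hδ)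
    · show sqLen _ < b ^ 2
      rw [sqLen_smul, hx₀]; nlinarith [pow_pos hb 2]
  have hV10 : 0 ≤ V1 := measureReal_nonneg
  -- choose the thickness
  set η := min (min η₁ (1 / 4)) (min ((b ^ 2 - a ^ 2) / (4 * b ^ 2))
    (min (δ / (4 * b)) (c * V0 / (8 * (K + 1) * (V1 + 1))))) with hηdef
  have hab2 : 0 < b ^ 2 - a ^ 2 := by
    have := pow_lt_pow_left₀ hab ha.le two_ne_zero
    linarith
  have hη : 0 < η := by
    refine lt_min (lt_min hη₁ (by norm_num)) (lt_min ?_ (lt_min ?_ ?_)) <;> positivity
  have hη4 : η ≤ 1 / 4 := (min_le_left _ _).trans (min_le_right _ _)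
  have hηab : η * (4 * b ^ 2) ≤ b ^ 2 - a ^ 2 := (le_div_iff₀ (by positivity)).1
    ((min_le_right _ _).trans (min_le_left _ _))
  have hηδ : η * (4 * b) ≤ δ := (le_div_iff₀ (by positivity)).1
    ((min_le_right _ _).trans ((min_le_right _ _).trans (min_le_left _ _)))
  have hηc : η * (8 * (K + 1) * (V1 + 1)) ≤ c * V0 := (le_div_iff₀ (by positivity)).1
    ((min_le_right _ _).trans ((min_le_right _ _).trans (min_le_right _ _)))
  have hbound := hK η hη ((min_le_left _ _).trans (min_le_left _ _))
  have cm : Continuous fun x => cut b η (sqLen x) :=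
    (contDiff_cut b η).continuous.comp contDiff_sqLen.continuous
  -- the two radii
  set k₁ := Real.sqrt (1 - 2 * η) with hk₁
  set k₂ := Real.sqrt (1 - η) with hk₂
  have hk₁0 : 0 < k₁ := Real.sqrt_pos.2 (by linarith)
  have hk₂0 : 0 < k₂ := Real.sqrt_pos.2 (by linarith)
  have hk₁2 : k₁ ^ 2 = 1 - 2 * η := Real.sq_sqrt (by linarith)
  have hk₂2 : k₂ ^ 2 = 1 - η := Real.sq_sqrt (by linarith)
  have hk₁1 : k₁ ≤ 1 := Real.sqrt_le_one.2 (by linarith)
  have hk₂1 : k₂ ≤ 1 := Real.sqrt_le_one.2 (by linarith)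
  -- upper bound of the layer mean
  set S1 := coneBall ({0}ᶜ : Set Sp) b \ coneBall ({0}ᶜ : Set Sp) (k₁ * b) with hS1
  have m1 : MeasurableSet S1 :=
    (isOpen_punctured.measurableSet.inter (measurableSet_lt contDiff_sqLen.continuous.measurable
      measurable_const)).diff (isOpen_punctured.measurableSet.inter
        (measurableSet_lt contDiff_sqLen.continuous.measurable measurable_const))
  have iμ : IntegrableOn (fun x => cut b η (sqLen x)) Ω := intOn hbd cm.continuousOn
  have i1 : IntegrableOn (fun _ : Sp => (1 : ℝ)) S1 :=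
    integrableOn_const ((measure_mono diff_subset).trans_lt
      (isBounded_coneBall _ b).measure_lt_top).ne
  have up : ∫ x in Ω, cut b η (sqLen x) ≤ 4 * η * V1 := by
    have e : ∫ x in Ω, cut b η (sqLen x) = ∫ x in Ω ∩ S1, cut b η (sqLen x) := by
      refine (setIntegral_eq_of_subset_of_forall_diff_eq_zero ho.measurableSet inter_subset_left
        fun x hx => ?_)
      refine cut_eq_zero hb hη ?_
      by_contra hlt
      push Not at hlt
      refine hx.2 ⟨hx.1, ⟨⟨shell_ne_zero ha hx.1, hx.1.2⟩, fun h2 => ?_⟩⟩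
      have := h2.2
      rw [mul_pow, hk₁2] at this
      linarith
    rw [e]
    calc ∫ x in Ω ∩ S1, cut b η (sqLen x) ≤ ∫ _ in Ω ∩ S1, (1 : ℝ) :=
          setIntegral_mono_on (iμ.mono_set inter_subset_left) (i1.mono_set inter_subset_right)
            (ho.measurableSet.inter m1) fun x _ => cut_le_one _ _ _
      _ ≤ ∫ _ in S1, (1 : ℝ) := setIntegral_mono_set i1
          (.of_forall fun _ => zero_le_one) inter_subset_right.eventuallyLE
      _ = (1 - k₁ ^ 3) * V1 := by
          rw [setIntegral_const, smul_eq_mul, mul_one, hS1,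
            volume_coneShell isOpen_punctured.measurableSet hcone' hk₁0 hk₁1]
      _ ≤ 4 * η * V1 := by
          refine mul_le_mul_of_nonneg_right ?_ hV10
          nlinarith [pow_nonneg hk₁0.le 3, mul_le_mul_of_nonneg_left hk₁1 (pow_nonneg hk₁0.le 3)]
  -- lower bound of the weighted mean
  set S0 := coneBall C b \ coneBall C (k₂ * b) with hS0
  have hsub : S0 ⊆ Ω := fun x hx => by
    refine ⟨?_, hx.1.2⟩
    by_contra h
    push Not at h
    refine hx.2 ⟨hx.1.1, ?_⟩
    rw [mul_pow, hk₂2]
    nlinarith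
  have low : c * ((1 - k₂ ^ 3) * V0) ≤ ∫ x in Ω, cut b η (sqLen x) * α x ^ 2 := by
    have iI : IntegrableOn (fun x => cut b η (sqLen x) * α x ^ 2) Ω :=
      intOn hbd (cm.mul (hαc.pow 2)).continuousOn
    have ic : IntegrableOn (fun _ : Sp => c) S0 :=
      integrableOn_const ((measure_mono diff_subset).trans_lt
        (isBounded_coneBall _ b).measure_lt_top).ne
    calc c * ((1 - k₂ ^ 3) * V0) = ∫ _ in S0, c := by
          rw [setIntegral_const, smul_eq_mul, hS0,
            volume_coneShell hCo.measurableSet hcone hk₂0 hk₂1]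
          ring
      _ ≤ ∫ x in S0, cut b η (sqLen x) * α x ^ 2 := by
          refine setIntegral_mono_on ic (iI.mono_set hsub)
            ((hCo.measurableSet.inter (measurableSet_lt contDiff_sqLen.continuous.measurable
              measurable_const)).diff (hCo.measurableSet.inter
              (measurableSet_lt contDiff_sqLen.continuous.measurable measurable_const)))
            fun x hx => ?_
          have hlo : b ^ 2 * (1 - η) ≤ sqLen x := by
            by_contra h
            exact hx.2 ⟨hx.1.1, by rw [mul_pow, hk₂2]; push Not at h; linarith⟩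
          rw [cut_eq_one hb hη hlo, one_mul]
          refine (hball ?_).le
          have hx0 : x ≠ 0 := hx.1.1.1
          set r := Real.sqrt (sqLen x) with hr
          have hr0 : 0 < r := Real.sqrt_pos.2 (sqLen_pos hx0)
          have hrb : r ≤ b := (Real.sqrt_le_iff).2 ⟨hb.le, hx.1.2.le⟩
          have hr2 : r ^ 2 = sqLen x := Real.sq_sqrt (sqLen_nonneg x)
          have hbr : b - r ≤ η * b := by nlinarith
          have hPx : dist x (P x) ≤ b - r := by
            have hxn : ‖x‖ ≤ r := (pi_norm_le_iff_of_nonneg hr0.le).2 fun i => by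
              rw [Real.norm_eq_abs]
              exact Real.abs_le_sqrt (Finset.single_le_sum (f := fun k => x k ^ 2)
                (fun k _ => sq_nonneg _) (Finset.mem_univ i))
            rw [dist_eq_norm, show x - P x = (1 - b * invLen x) • x by
              simp only [hP, sub_smul, one_smul], norm_smul, Real.norm_eq_abs, invLen, ← hr]
            have h1 : |1 - b * r⁻¹| = (b - r) / r := by
              rw [abs_sub_comm, abs_of_nonneg (by rw [← div_eq_mul_inv, sub_nonneg, le_div_iff₀ hr0]; linarith)]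
              field_simp
            rw [h1]
            calc (b - r) / r * ‖x‖ ≤ (b - r) / r * r :=
                  mul_le_mul_of_nonneg_left hxn (div_nonneg (by linarith) hr0.le)
              _ = b - r := by field_simp
          calc dist x x₀ ≤ dist x (P x) + dist (P x) x₀ := dist_triangle _ _ _
            _ < η * b + δ / 2 := by
                have := Metric.mem_ball.1 hx.1.1.2
                linarith
            _ ≤ δ := by linarith
      _ ≤ ∫ x in Ω, cut b η (sqLen x) * α x ^ 2 := setIntegral_mono_set iI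
          (.of_forall fun x => mul_nonneg (cut_nonneg _ _ _) (sq_nonneg _)) hsub.eventuallyLE
  have hk₂3 : η ≤ 1 - k₂ ^ 3 := by nlinarith
  have h1 := mul_le_mul_of_nonneg_left (mul_le_mul_of_nonneg_right hk₂3 hV0pos.le) hc0.le
  have h2 := mul_le_mul_of_nonneg_left up (mul_nonneg hK0 hη.le)
  have h3 : c * (η * V0) ≤ K * η * (4 * η * V1) := h1.trans (low.trans (hbound.trans h2))
  have h4 : K * (4 * η * V1) * 2 ≤ c * V0 := by
    nlinarith [mul_nonneg hη.le hK0, mul_nonneg hη.le hV10]
  nlinarith [mul_pos hη (mul_pos hc0 hV0pos)]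

end Vale.Agent.P088
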